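import Vale.Agent.P188.H893.Gcl

/-!
# P188, block GCL: neutral flatness and sign choice out of smallness of `Tol`
-/

set_option linter.all false

namespace Vale.Agent.P188.H893

open MeasureTheory Set Real H616 H329

variable {ι : Type} {S : Type} [Group S] {l h : S → ℝ} {X : S → ℂ} {A L : ℝ}

/-- the forward path: along `ζ` from `ζ j` to `ζ n`, then along `u i` -/
def fwd (ζ : ℕ → S) (u : ι → ℕ → S) (n j : ℕ) (i : ι) (k : ℕ) : S :=
  if k ≤ n - j then (ζ j)⁻¹ * ζ (j + k) else (ζ j)⁻¹ * ζ n * u i (k - (n - j))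

/-- the backward path: along `ζ` from `ζ j` to `ζ 0`, then along `u i` -/
def bwd (ζ : ℕ → S) (u : ι → ℕ → S) (j : ℕ) (i : ι) (k : ℕ) : S :=
  if k ≤ j then (ζ j)⁻¹ * ζ (j - k) else (ζ j)⁻¹ * ζ 0 * u i (k - j)

theorem mem_tol_fwd (c : Coord l h X A L) {ζ : ℕ → S} {u : ι → ℕ → S} {n m : ℕ}
    {κ τ : ℝ} (hτ : 0 ≤ τ) (hu : ∀ i k, k ≤ m → L * l (u i k) ≤ κ) {x : S} {j : ℕ} (hj : j ≤ n)
    (hmax : ∀ j' ≤ n, h (x * ζ j') ≤ h (x * ζ j)) (hlow : h (x * ζ n) ≤ h (x * ζ j) - κ) :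
    x * ζ j ∈ Tol h (fwd ζ u n j) (n - j + m) τ := by
  intro i k hk
  unfold fwd
  split_ifs with h1
  · have e : x * ζ j * ((ζ j)⁻¹ * ζ (j + k)) = x * ζ (j + k) := by group
    rw [e]
    have := hmax (j + k) (by omega)
    linarith
  · have e : x * ζ j * ((ζ j)⁻¹ * ζ n * u i (k - (n - j))) = x * ζ n * u i (k - (n - j)) := by group
    rw [e]
    have h2 := c.lip (x * ζ n) (u i (k - (n - j)))
    have h3 := hu i (k - (n - j)) (by omega)
    rw [abs_le] at h2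
    linarith [h2.2]

theorem mem_tol_bwd (c : Coord l h X A L) {ζ : ℕ → S} {u : ι → ℕ → S} {n m : ℕ}
    {κ τ : ℝ} (hτ : 0 ≤ τ) (hu : ∀ i k, k ≤ m → L * l (u i k) ≤ κ) {x : S} {j : ℕ} (hj : j ≤ n)
    (hmax : ∀ j' ≤ n, h (x * ζ j') ≤ h (x * ζ j)) (hlow : h (x * ζ 0) ≤ h (x * ζ j) - κ) :
    x * ζ j ∈ Tol h (bwd ζ u j) (j + m) τ := by
  intro i k hk
  unfold bwd
  split_ifs with h1
  · have e : x * ζ j * ((ζ j)⁻¹ * ζ (j - k)) = x * ζ (j - k) := by group
    rw [e]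
    have := hmax (j - k) (by omega)
    linarith
  · have e : x * ζ j * ((ζ j)⁻¹ * ζ 0 * u i (k - j)) = x * ζ 0 * u i (k - j) := by group
    rw [e]
    have h2 := c.lip (x * ζ 0) (u i (k - j))
    have h3 := hu i (k - j) (by omega)
    rw [abs_le] at h2
    linarith [h2.2]

/-- **Neutral flatness.** `ζ` is a path from `1` to `ζ n`; if the approximate peaks with respect to
the paths `fwd`, `bwd` are few then `h` changes little from `x` to `x * ζ n` for most `x`. -/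
theorem neutral_flat [MeasurableSpace S] (μ : Measure S) (c : Coord l h X A L)
    (hri : ∀ (g : S) (V : Set S), μ ((fun z => z * g) ⁻¹' V) ≤ μ V)
    {ζ : ℕ → S} (hζ : ζ 0 = 1) {u : ι → ℕ → S} {n m : ℕ} {κ τ : ℝ} (hτ : 0 ≤ τ)
    (hu : ∀ i k, k ≤ m → L * l (u i k) ≤ κ) {D Dp : Set S} (hD : ∀ x ∈ D, ∀ j ≤ n, x * ζ j ∈ Dp)
    {θ : ENNReal}
    (hf : ∀ j ≤ n, μ (Dp ∩ Tol h (fwd ζ u n j) (n - j + m) τ) ≤ θ)
    (hb : ∀ j ≤ n, μ (Dp ∩ Tol h (bwd ζ u j) (j + m) τ) ≤ θ) :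
    μ {x | x ∈ D ∧ κ < |h (x * ζ n) - h x|} ≤ (2 * (n + 1) : ℕ) * θ := by
  classical
  set V : ℕ → Set S := fun j => (fun z => z * ζ j) ⁻¹' (Dp ∩ Tol h (fwd ζ u n j) (n - j + m) τ) ∪
    (fun z => z * ζ j) ⁻¹' (Dp ∩ Tol h (bwd ζ u j) (j + m) τ) with hV
  have hsub : {x | x ∈ D ∧ κ < |h (x * ζ n) - h x|} ⊆ ⋃ j ∈ Finset.range (n + 1), V j := by
    rintro x ⟨hx, hκ⟩
    obtain ⟨j, hj, hmax⟩ := Finset.exists_max_image (Finset.range (n + 1)) (fun j => h (x * ζ j))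
      ⟨0, Finset.mem_range.2 (by omega)⟩
    have hj' : j ≤ n := by
      have := Finset.mem_range.1 hj
      omega
    have hmax' : ∀ j' ≤ n, h (x * ζ j') ≤ h (x * ζ j) := fun j' hj' =>
      hmax j' (Finset.mem_range.2 (by omega))
    rw [mem_iUnion₂]
    refine ⟨j, hj, ?_⟩
    have hx0 : h (x * ζ 0) = h x := by rw [hζ, mul_one]
    rcases lt_abs.1 hκ with h1 | h1
    · right
      refine ⟨hD x hx j hj', mem_tol_bwd c hτ hu hj' hmax' ?_⟩
      have := hmax' n le_rfl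
      rw [hx0]
      linarith
    · left
      refine ⟨hD x hx j hj', mem_tol_fwd c hτ hu hj' hmax' ?_⟩
      have := hmax' 0 (Nat.zero_le _)
      rw [hx0] at this
      linarith
  calc μ {x | x ∈ D ∧ κ < |h (x * ζ n) - h x|} ≤ μ (⋃ j ∈ Finset.range (n + 1), V j) :=
        measure_mono hsub
    _ ≤ ∑ j ∈ Finset.range (n + 1), μ (V j) := measure_biUnion_finset_le _ _
    _ ≤ ∑ j ∈ Finset.range (n + 1), (θ + θ) := by
        refine Finset.sum_le_sum fun j hj => ?_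
        have hj' : j ≤ n := by
          have := Finset.mem_range.1 hj
          omega
        exact (measure_union_le _ _).trans (add_le_add ((hri _ _).trans (hf j hj'))
          ((hri _ _).trans (hb j hj')))
    _ = _ := by
        rw [Finset.sum_const, Finset.card_range, nsmul_eq_mul]
        push_cast
        ring

/-- the path `t ^ (± k)` -/
theorem tolPk_subset {t : S} {σ : ι → Bool} {r' : ℕ} {τ : ℝ} :
    {z | ∀ i : ℤ, |i| ≤ r' → h (z * t ^ i) ≤ h z + τ} ⊆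
      Tol h (fun i k => if σ i then t ^ k else t⁻¹ ^ k) r' τ := by
  intro z hz i k hk
  show h (z * (if σ i then t ^ k else t⁻¹ ^ k)) ≤ h z + τ
  split_ifs
  · have := hz k (by rw [abs_of_nonneg (by positivity)]; exact_mod_cast hk)
    rwa [zpow_natCast] at this
  · have := hz (-k) (by rw [abs_neg, abs_of_nonneg (by positivity)]; exact_mod_cast hk)
    rwa [zpow_neg, zpow_natCast, ← inv_pow] at this

/-- **Choice of signs.** If for every choice of one admissible path for every letter the set `Tol` is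
small then, off a small set, for some letter all admissible paths leave the range. -/
theorem tol_choice [Fintype ι] [DecidableEq ι] [MeasurableSpace S] (μ : Measure S) {Q : ι → Type}
    [∀ i, Fintype (Q i)]
    {γ : (i : ι) → Q i → ℕ → S} {m : ℕ} {τ : ℝ} {Dp : Set S} {θ : ENNReal}
    (hT : ∀ σ : (i : ι) → Q i, μ (Dp ∩ Tol h (fun i => γ i (σ i)) m τ) ≤ θ) :
    μ {z | z ∈ Dp ∧ ∀ i, ∃ q, ∀ k ≤ m, h (z * γ i q k) ≤ h z + τ} ≤
      Fintype.card ((i : ι) → Q i) * θ := by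
  classical
  have hsub : {z | z ∈ Dp ∧ ∀ i, ∃ q, ∀ k ≤ m, h (z * γ i q k) ≤ h z + τ} ⊆
      ⋃ σ ∈ (Finset.univ : Finset ((i : ι) → Q i)), Dp ∩ Tol h (fun i => γ i (σ i)) m τ := by
    rintro z ⟨hz, hz2⟩
    choose σ hσ using hz2
    rw [mem_iUnion₂]
    exact ⟨σ, Finset.mem_univ _, hz, fun i k hk => hσ i k hk⟩
  calc _ ≤ μ (⋃ σ ∈ (Finset.univ : Finset ((i : ι) → Q i)), Dp ∩ Tol h (fun i => γ i (σ i)) m τ) :=
        measure_mono hsub
    _ ≤ ∑ σ ∈ (Finset.univ : Finset ((i : ι) → Q i)), μ (Dp ∩ Tol h (fun i => γ i (σ i)) m τ) :=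
        measure_biUnion_finset_le _ _
    _ ≤ ∑ σ ∈ (Finset.univ : Finset ((i : ι) → Q i)), θ := Finset.sum_le_sum fun σ _ => hT σ
    _ = _ := by rw [Finset.sum_const, Finset.card_univ, nsmul_eq_mul]

end Vale.Agent.P188.H893
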