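import Vale.Agent.P188.H893.Digits
import Mathlib.MeasureTheory.Measure.MeasureSpace

/-!
# P188, block GCL, part 2: SPREAD

Every set `Γ` of positive proportion in `D` contains, in one ball, many points whose target
coordinates are well separated: no colouring of `Γ ∩ ball` with few colours has `D ∘ Φ` almost
constant on the colour classes.
-/

set_option linter.all false

namespace Vale.Agent.P188.H893

open Finset MeasureTheory Real

variable {G : Type*} [Group G] {S : Type*} [MeasurableSpace S]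

/-- The correspondence between the source `S` (measure `μ`) and the target group `G`:
`Φ` has fibres of measure at most `m1`; every `g` has a cell `P g` of measure at least `m0`, the
cells having multiplicity at most `C`. -/
structure Cells (μ : Measure S) (Φ : S → G) (P : G → Set S) (m0 m1 : ENNReal) (C : ℕ) : Prop where
  m0_ne : m0 ≠ 0
  m1_ne : m1 ≠ ⊤
  fib : ∀ g, μ (Φ ⁻¹' {g}) ≤ m1
  big : ∀ g, m0 ≤ μ (P g)
  mult : ∀ B : Finset G, ∑ g ∈ B, μ (P g) ≤ C * μ (⋃ g ∈ B, P g)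

theorem Cells.card_le {μ : Measure S} {Φ : S → G} {P : G → Set S} {m0 m1 : ENNReal} {C : ℕ}
    (c : Cells μ Φ P m0 m1 C) {B : Finset G} {Dp : Set S} (h : ∀ g ∈ B, P g ⊆ Dp) :
    B.card * m0 ≤ C * μ Dp := by
  calc (B.card : ENNReal) * m0 = ∑ g ∈ B, m0 := by rw [sum_const, nsmul_eq_mul]
    _ ≤ ∑ g ∈ B, μ (P g) := sum_le_sum fun g _ => c.big g
    _ ≤ C * μ (⋃ g ∈ B, P g) := c.mult B
    _ ≤ C * μ Dp := by
        gcongr
        exact Set.iUnion₂_subset h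

/-- **SPREAD.** -/
theorem spread {μ : Measure S} {ρ D : G → ℂ} {t u : G} (T : Tgt ρ D t u)
    {Φ : S → G} {P : G → Set S} {m0 m1 : ENNReal} {C : ℕ} (c : Cells μ Φ P m0 m1 C)
    {h : S → ℝ} {X : S → ℂ} (hh : ∀ z, exp (h z) = ‖ρ (Φ z)‖) (hX : ∀ z, X z = D (Φ z))
    {DD Dp : Set S} {M : ℕ} (hDp : μ Dp ≤ M * μ DD) (hDfin : μ DD ≠ ⊤)
    {q j N : ℕ} {κ0 C0 : ℝ} (hC0 : 0 ≤ C0)
    (hP : ∀ z ∈ DD, ∀ J ⊆ range q, P (Φ z * (dg t u J q)⁻¹) ⊆ Dp)
    {B : S → Set S} {Φ' : G → S}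
    (hB : ∀ z ∈ DD, ∀ J ⊆ range q, z ∈ B (Φ' (Φ z * (dg t u J q)⁻¹)))
    {θ : ENNReal} (hbig : (N * 2 ^ j : ℕ) * (C * M * m1) < 2 ^ q * (m0 * θ))
    (hκ : exp κ0 < ‖D u‖ * ‖ρ t‖ ^ j / 2)
    (Γ : Set S) (hΓD : Γ ⊆ DD) (hΓ : θ * μ DD ≤ μ Γ) (hΓ0 : μ Γ ≠ 0) :
    ∃ z0, ∀ {α : Type*} (Y : Finset α) (φ : S → α), Y.card ≤ N → (∀ z ∈ Γ ∩ B z0, φ z ∈ Y) →
      ∃ z ∈ Γ ∩ B z0, ∃ z' ∈ Γ ∩ B z0, φ z = φ z' ∧ |h z - h z'| ≤ C0 ∧
        exp (h z + κ0) < ‖X z - X z'‖ := by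
  classical
  -- the image is finite
  have hDpfin : μ Dp ≠ ⊤ := ne_top_of_le_ne_top (ENNReal.mul_ne_top (ENNReal.natCast_ne_top M) hDfin)
    hDp
  have hdg0 : ∀ z ∈ Γ, P (Φ z * (dg t u ∅ q)⁻¹) ⊆ Dp := fun z hz => hP z (hΓD hz) ∅ (by simp)
  have hdge : dg t u ∅ q = 1 := by
    clear hP hB hbig hdg0
    induction q with
    | zero => rfl
    | succ q ih => rw [dg, ih]; simp
  have hfin : (Φ '' Γ).Finite := by
    by_contra hinf
    have hinf : (Φ '' Γ).Infinite := hinf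
    -- arbitrarily large finite subsets
    obtain ⟨n, hn⟩ : ∃ n : ℕ, C * μ Dp < n * m0 := by
      have h1 : C * μ Dp ≠ ⊤ := ENNReal.mul_ne_top (ENNReal.natCast_ne_top C) hDpfin
      rcases eq_or_ne m0 ⊤ with h2 | h2
      · refine ⟨1, ?_⟩
        rw [h2]
        simp only [Nat.cast_one, one_mul]
        exact lt_top_iff_ne_top.2 h1
      · obtain ⟨n, hn⟩ := ENNReal.exists_nat_gt (ENNReal.div_lt_top h1 c.m0_ne).ne
        refine ⟨n, ?_⟩
        rwa [ENNReal.div_lt_iff (Or.inl c.m0_ne) (Or.inl h2)] at hn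
    obtain ⟨A', hA', hcard⟩ := hinf.exists_subset_card_eq n
    have h3 := c.card_le (B := A') (Dp := Dp) (fun g hg => by
      obtain ⟨z, hz, rfl⟩ := hA' hg
      have := hdg0 z hz
      rwa [hdge, inv_one, mul_one] at this)
    rw [hcard] at h3
    exact absurd h3 (not_le.2 hn)
  set A : Finset G := hfin.toFinset with hA
  have hAmem : ∀ a, a ∈ A ↔ ∃ z ∈ Γ, Φ z = a := by
    intro a
    rw [hA, Set.Finite.mem_toFinset]
    rfl
  have hΓA : μ Γ ≤ A.card * m1 := by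
    calc μ Γ ≤ μ (⋃ a ∈ A, Φ ⁻¹' {a}) := by
          refine measure_mono fun z hz => ?_
          rw [Set.mem_iUnion₂]
          exact ⟨Φ z, (hAmem _).2 ⟨z, hz, rfl⟩, rfl⟩
      _ ≤ ∑ a ∈ A, μ (Φ ⁻¹' {a}) := measure_biUnion_finset_le _ _
      _ ≤ ∑ a ∈ A, m1 := sum_le_sum fun a _ => c.fib a
      _ = A.card * m1 := by rw [sum_const, nsmul_eq_mul]
  have hAne : A.Nonempty := by
    by_contra h1
    rw [not_nonempty_iff_eq_empty] at h1
    rw [h1] at hΓA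
    simp at hΓA
    exact hΓ0 hΓA
  obtain ⟨y, hy, hcount⟩ := exists_translate hAne t u q
  set Bf := trans A t u q with hBf
  have hBfc : (Bf.card : ENNReal) * m0 ≤ C * μ Dp := by
    refine c.card_le fun g hg => ?_
    obtain ⟨⟨a, J⟩, hp, rfl⟩ := mem_image.1 hg
    obtain ⟨ha, hJ⟩ := mem_product.1 hp
    obtain ⟨z, hz, rfl⟩ := (hAmem a).1 ha
    exact hP z (hΓD hz) J (mem_powerset.1 hJ)
  set 𝒥 := (range q).powerset.filter fun J => y * dg t u J q ∈ A with h𝒥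
  -- the count
  have hN : N * 2 ^ j < 𝒥.card := by
    by_contra hcon
    rw [not_lt] at hcon
    have hA0 : (A.card : ENNReal) ≠ 0 := by
      rw [Nat.cast_ne_zero]; exact hAne.card_ne_zero
    have hAt : (A.card : ENNReal) ≠ ⊤ := ENNReal.natCast_ne_top _
    have h1 : (2 ^ q * A.card : ENNReal) ≤ 𝒥.card * Bf.card := by exact_mod_cast hcount
    have h2 : (Bf.card : ENNReal) * (m0 * θ) ≤ A.card * (C * M * m1) := by
      calc (Bf.card : ENNReal) * (m0 * θ) = (Bf.card * m0) * θ := by ring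
        _ ≤ (C * μ Dp) * θ := by gcongr
        _ ≤ (C * (M * μ DD)) * θ := by gcongr
        _ = C * M * (θ * μ DD) := by ring
        _ ≤ C * M * (A.card * m1) := mul_le_mul' le_rfl (hΓ.trans hΓA)
        _ = A.card * (C * M * m1) := by ring
    have h3 : (A.card : ENNReal) * (2 ^ q * (m0 * θ)) ≤
        A.card * ((N * 2 ^ j : ℕ) * (C * M * m1)) := by
      calc (A.card : ENNReal) * (2 ^ q * (m0 * θ)) = (2 ^ q * A.card) * (m0 * θ) := by ring
        _ ≤ (𝒥.card * Bf.card) * (m0 * θ) := by gcongr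
        _ = 𝒥.card * (Bf.card * (m0 * θ)) := by ring
        _ ≤ 𝒥.card * (A.card * (C * M * m1)) := by gcongr
        _ ≤ (N * 2 ^ j : ℕ) * (A.card * (C * M * m1)) := by
            gcongr
        _ = A.card * ((N * 2 ^ j : ℕ) * (C * M * m1)) := by ring
    have h4 := (ENNReal.mul_le_mul_iff_right hA0 hAt).1 h3
    exact absurd h4 (not_le.2 hbig)
  -- choose the points
  have hch : ∀ J ∈ 𝒥, ∃ z ∈ Γ, Φ z = y * dg t u J q := fun J hJ =>
    (hAmem _).1 (mem_filter.1 hJ).2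
  haveI : Nonempty S := by
    obtain ⟨a, ha⟩ := hAne
    obtain ⟨z, _, _⟩ := (hAmem a).1 ha
    exact ⟨z⟩
  choose! zz hzz using hch
  refine ⟨Φ' y, fun {α} Y φ hY hφ => ?_⟩
  have hin : ∀ J ∈ 𝒥, zz J ∈ Γ ∩ B (Φ' y) := by
    intro J hJ
    refine ⟨(hzz J hJ).1, ?_⟩
    have h1 := hB (zz J) (hΓD (hzz J hJ).1) J (mem_powerset.1 (mem_filter.1 hJ).1)
    rw [(hzz J hJ).2, mul_inv_cancel_right] at h1
    exact h1
  obtain ⟨J, hJ, J', hJ', heq, hsep⟩ := exists_pair (q := q) (j := j) (N := N) (𝒥 := 𝒥)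
    (fun J hJ => mem_powerset.1 (mem_filter.1 hJ).1) Y hY (fun J => φ (zz J))
    (fun J hJ => hφ _ (hin J hJ)) hN
  have hnorm : ∀ J ∈ 𝒥, exp (h (zz J)) = ‖ρ y‖ := by
    intro J hJ
    rw [hh, (hzz J hJ).2, T.ρ_mul, T.ρ_dg, mul_one]
  have hheq : h (zz J) = h (zz J') := exp_injective ((hnorm J hJ).trans (hnorm J' hJ').symm)
  refine ⟨zz J, hin J hJ, zz J', hin J' hJ', heq, ?_, ?_⟩
  · rw [hheq, sub_self, abs_zero]; exact hC0
  · rw [hX, hX, (hzz J hJ).2, (hzz J' hJ').2, exp_add, hnorm J hJ]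
    refine lt_of_lt_of_le ?_ (T.sep hsep y)
    refine mul_lt_mul_of_pos_left hκ ?_
    rw [norm_pos_iff]
    exact T.ρ_ne y

end Vale.Agent.P188.H893
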