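import Vale.Agent.P188.H893.ChainTo

/-!
# P188, route B: CHAIN and INPUT imply (ES) (helper893)
-/

set_option linter.all false

namespace Vale.P188.H532

open MeasureTheory Set
open scoped ENNReal

variable {S E V ι L : Type} [Group S] [Group E] [MeasurableSpace E] [NormedAddCommGroup V]
    [NormedSpace ℝ V] [Fintype ι] [DecidableEq ι] [Fintype L]

variable {G : Geo S E V ι L} {Λ : ℝ}

theorem IsC.change {Ψ : S → S} {r ω ε τ : ℝ} {ρ : Option ι → ℝ} {g : S} {c c' : V}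
    (h : IsC G Ψ r ω ε ρ g c) (hc : ω + ‖c - c'‖ ≤ τ) : IsC G Ψ r τ ε ρ g c' := by
  intro h' hh
  refine (measure_mono ?_).trans (h h' hh)
  rintro n ⟨h1, h2⟩
  refine ⟨h1, ?_⟩
  have h3 : ‖Wd G Ψ (g * G.inc n * h') - c'‖ ≤ ‖Wd G Ψ (g * G.inc n * h') - c‖ + ‖c - c'‖ := by
    calc ‖Wd G Ψ (g * G.inc n * h') - c'‖
        = ‖(Wd G Ψ (g * G.inc n * h') - c) + (c - c')‖ := by congr 1; abel
      _ ≤ _ := norm_add_le _ _
  linarith

/-- the largest window -/
def topW (G : Geo S E V ι L) (κ x n : ℝ) : Option ι → ℝ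
  | none => n
  | some j => x * G.p j + κ * x

theorem ch_of_chain {𝓕 : Set (S → S)} (hΛ : ∀ Ψ ∈ 𝓕, QIe G Λ Ψ) (hI : Input G 𝓕)
    (hCh : CHAIN G Λ) : CH G 𝓕 := by
  obtain ⟨c7, hc7, HI⟩ := hI.flatW
  obtain ⟨K, δ2, hK, hδ2, HC⟩ := hCh
  have hC := G.one_le_C
  have hδ0 := G.δ0_pos
  have hδ01 := G.δ0_le
  set κ : ℝ := min δ2 (G.δ0 / (4 * G.C)) with hκ
  have hκ0 : 0 < κ := by positivity
  have hκ2 : κ ≤ δ2 := min_le_left _ _
  have hκW : κ ≤ G.δ0 / (4 * G.C) := min_le_right _ _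
  have hκ1 : κ ≤ 1 := by
    refine hκW.trans ?_
    rw [div_le_one (by positivity)]
    linarith
  set lam : ℝ := 1 + κ / (4 * G.C) with hlam
  have hl0 : 0 < κ / (4 * G.C) := by positivity
  have hl1 : κ / (4 * G.C) ≤ κ / 4 := by
    apply div_le_div_of_nonneg_left hκ0.le (by norm_num)
    linarith
  have hlam1 : 1 < lam := by rw [hlam]; linarith
  have hlam2 : lam ^ 2 ≤ 1 + κ := by
    rw [hlam]
    nlinarith
  have hlam0 : 0 < lam := by linarith
  refine ⟨c7, κ, lam, hc7, hκ0, hlam1, by rw [hlam]; linarith, ?_, fun η hη => ?_⟩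
  · have : (lam - 1) * G.C = κ / 4 := by rw [hlam]; field_simp; ring
    rw [this]; linarith
  -- the errors
  set η' : ℝ := min (η / (K + 1)) (1 / K) with hη'
  have hK0 : 0 < K := by linarith
  have hη'0 : 0 < η' := by positivity
  obtain ⟨ε0, hε0, HC⟩ := HC η' hη'0
  set η'' : ℝ := min η' (min ε0 η) with hη''
  have hη''0 : 0 < η'' := by positivity
  obtain ⟨dm, hdm, HI⟩ := HI η'' hη''0
  obtain ⟨dm', hdm', HS⟩ := exists_Sc G K hK η' hη'0 (min_le_right _ _)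
  set d' : ℝ := min dm dm' with hd'
  have hd'0 : 0 < d' := by positivity
  obtain ⟨x0, HI⟩ := HI d' hd'0 (min_le_left _ _)
  obtain ⟨x1, HS⟩ := HS d' hd'0 (min_le_right _ _)
  refine ⟨d' * lam ^ 2, max x0 x1, by positivity, fun Ψ hΨ x hx => ?_⟩
  have hF := HI Ψ hΨ x ((le_max_left _ _).trans hx)
  obtain ⟨hS, hKr⟩ := HS x ((le_max_right _ _).trans hx)
  have hQ := hΛ Ψ hΨ
  have hx0 : 0 < x := by
    have h1 := hS.w_ge
    linarith
  have hF0 : FlatW G Ψ 0 x (d' * x) (η' * x) ε0 :=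
    hF.mono (by positivity) (mul_le_mul_of_nonneg_right (min_le_left _ _) hx0.le)
      ((min_le_right _ _).trans (min_le_left _ _))
  have hr0 : 0 ≤ d' * x := by positivity
  -- the largest window
  have hlam2' : d' * lam ^ 2 * x ≤ (1 + κ) * (d' * x) := by
    calc d' * lam ^ 2 * x = lam ^ 2 * (d' * x) := by ring
      _ ≤ (1 + κ) * (d' * x) := mul_le_mul_of_nonneg_right hlam2 hr0
  have hl2 : 1 ≤ lam ^ 2 := one_le_pow₀ hlam1.le
  have htop : Win G κ x (d' * x) (topW G κ x (d' * lam ^ 2 * x)) := by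
    refine ⟨fun j => ?_, ?_, hlam2'⟩
    · show |x * G.p j + κ * x - x * G.p j| ≤ κ * x
      rw [add_sub_cancel_left, abs_of_nonneg (by positivity)]
    · show d' * x ≤ d' * lam ^ 2 * x
      calc d' * x = 1 * (d' * x) := (one_mul _).symm
        _ ≤ lam ^ 2 * (d' * x) := mul_le_mul_of_nonneg_right hl2 hr0
        _ = _ := by ring
  choose c hc using fun g => (hF _ (htop.mono hx0.le hr0 hκW) g).1
  refine ⟨c, fun g ρ hρ => ?_⟩
  obtain ⟨hρn, hρr⟩ := hρ
  have hρ3 : d' * x ≤ ρ none ∧ ρ none ≤ d' * lam ^ 2 * x := by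
    have h0 : 0 < d' * x := by positivity
    rcases hρn with h | h | h
    · rw [h]
      constructor
      · nlinarith
      · exact le_rfl
    · have e : d' * lam ^ 2 * x / lam = d' * x * lam := by field_simp
      rw [h, e]
      constructor
      · nlinarith
      · have : d' * lam ^ 2 * x = d' * x * lam * lam := by ring
        rw [this]
        have : 0 < d' * x * lam := by positivity
        nlinarith
    · have e : d' * lam ^ 2 * x / lam ^ 2 = d' * x := by field_simp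
      rw [h, e]
      constructor
      · exact le_rfl
      · nlinarith
  have hρW : Win G κ x (d' * x) ρ := ⟨hρr, hρ3.1, hρ3.2.trans hlam2'⟩
  obtain ⟨cρ, hcρ⟩ := (hF _ (hρW.mono hx0.le hr0 hκW) g).1
  have hle : ∀ j, ρ j ≤ topW G κ x (d' * lam ^ 2 * x) j := by
    rintro (_ | j)
    · exact hρ3.2
    · show ρ (some j) ≤ x * G.p j + κ * x
      linarith [(abs_le.1 (hρr j)).2]
  have hη1 : η'' * x ≤ η' * x := mul_le_mul_of_nonneg_right (min_le_left _ _) hx0.le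
  have hη2 : η'' ≤ ε0 := (min_le_right _ _).trans (min_le_left _ _)
  have h1 := HC Ψ x (d' * x) hQ hS hKr hF0 ρ _ g cρ (c g) hle (hρW.mono hx0.le hr0 hκ2)
    (htop.mono hx0.le hr0 hκ2) (hcρ.mono' (by positivity) hη1 hη2)
    ((hc g).mono' (by positivity) hη1 hη2)
  have h2 : IsC G Ψ (c7 * x) (η * x) η'' ρ g (c g) := by
    refine hcρ.change ?_
    rw [norm_sub_rev]
    have h3 : η' ≤ η / (K + 1) := min_le_left _ _
    rw [le_div_iff₀ (by positivity)] at h3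
    have h4 := mul_le_mul_of_nonneg_right h3 hx0.le
    nlinarith
  exact h2.mono' le_rfl le_rfl ((min_le_right _ _).trans (min_le_right _ _))

/-- **SUM**: CHAIN and INPUT imply (ES). -/
theorem es_of_chain (G : Geo S E V ι L) (Λ : ℝ) (𝓕 : Set (S → S)) (hΛ : ∀ Ψ ∈ 𝓕, QIe G Λ Ψ)
    (hI : Input G 𝓕) (hCh : CHAIN G Λ) : ES G 𝓕 :=
  es_of_ch hΛ (ch_of_chain hΛ hI hCh)

/-- T_o and INPUT imply (ES). -/
theorem es_of_to (G : Geo S E V ι L) (Λ : ℝ) (𝓕 : Set (S → S)) (hΛ : ∀ Ψ ∈ 𝓕, QIe G Λ Ψ)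
    (hI : Input G 𝓕) (hT : TO G Λ) : ES G 𝓕 :=
  es_of_chain G Λ 𝓕 hΛ hI (chain_of_to G Λ hT)

end Vale.P188.H532
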