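import Mathlib

/-!
# Slices of sets in a cube
-/

set_option linter.all false

namespace Vale.P188.H532

open MeasureTheory Set
open scoped ENNReal

/-- Lebesgue measure on the cube `[-1, 1] ^ I` -/
noncomputable def cub (I : Type*) [Fintype I] : Measure (I → ℝ) :=
  Measure.pi fun _ : I => (volume : Measure ℝ).restrict (Icc (-1) 1)

instance (I : Type*) [Fintype I] : SigmaFinite (cub I) := by
  unfold cub; infer_instance

theorem cub_eq (I : Type*) [Fintype I] :
    cub I = (volume : Measure (I → ℝ)).restrict (Icc (fun _ => -1) (fun _ => 1)) := by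
  unfold cub
  rw [← Measure.restrict_pi_pi, pi_univ_Icc]
  rfl

theorem cub_apply {I : Type*} [Fintype I] {B : Set (I → ℝ)} (hB : MeasurableSet B) :
    cub I B = volume (Icc (fun _ => -1) (fun _ => 1) ∩ B) := by
  rw [cub_eq, Measure.restrict_apply hB, inter_comm]

theorem cub_univ (I : Type*) [Fintype I] : cub I univ = 2 ^ Fintype.card I := by
  unfold cub
  rw [Measure.pi_univ]
  have : (volume : Measure ℝ).restrict (Icc (-1) 1) univ = 2 := by
    rw [Measure.restrict_apply_univ, Real.volume_Icc]
    norm_num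
  simp [this]

/-- the point with the coordinates `z` in the block `p` and `x` elsewhere -/
def comb {I J : Type*} {p : I → Prop} [DecidablePred p] (f : J ≃ {i // p i}) (z : J → ℝ)
    (x : I → ℝ) (i : I) : ℝ := if hi : p i then z (f.symm ⟨i, hi⟩) else x i

theorem slice_le {I J : Type} [Fintype I] [Fintype J] {p : I → Prop} [DecidablePred p]
    (f : J ≃ {i // p i}) {F : Set (I → ℝ)} (hF : MeasurableSet F) {θ : ℝ≥0∞}
    (h : ∀ x : I → ℝ, cub J {z | comb f z x ∈ F} ≤ θ) : cub I F ≤ θ * 2 ^ Fintype.card I := by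
  classical
  set μ : Measure ℝ := (volume : Measure ℝ).restrict (Icc (-1) 1) with hμ
  set e := MeasurableEquiv.piEquivPiSubtypeProd (fun _ : I => ℝ) p with he
  have hmp : MeasurePreserving e (cub I) ((cub {i // p i}).prod (cub {i // ¬ p i})) :=
    measurePreserving_piEquivPiSubtypeProd (fun _ : I => μ) p
  have h1 : cub I F = ((cub {i // p i}).prod (cub {i // ¬ p i})) (e.symm ⁻¹' F) := by
    rw [← hmp.measure_preimage (e.symm.measurable hF).nullMeasurableSet, ← preimage_comp]
    congr 1
    ext x
    simp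
  have hF' : MeasurableSet (e.symm ⁻¹' F) := e.symm.measurable hF
  rw [h1, Measure.prod_apply_symm hF']
  have h2 : ∀ w, cub {i // p i} ((fun z => (z, w)) ⁻¹' (e.symm ⁻¹' F)) ≤ θ := by
    intro w
    set x : I → ℝ := fun i => if hi : p i then 0 else w ⟨i, hi⟩ with hx
    refine le_trans (le_of_eq ?_) (h x)
    have hmp2 : MeasurePreserving (MeasurableEquiv.piCongrLeft (fun _ : {i // p i} => ℝ) f)
        (cub J) (cub {i // p i}) :=
      measurePreserving_piCongrLeft (fun _ : {i // p i} => μ) f
    have hm : MeasurableSet ((fun z => (z, w)) ⁻¹' (e.symm ⁻¹' F)) :=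
      measurable_prodMk_right hF'
    rw [← hmp2.measure_preimage hm.nullMeasurableSet]
    congr 1
    ext z
    simp only [mem_preimage, mem_setOf_eq]
    have : e.symm ((MeasurableEquiv.piCongrLeft (fun _ : {i // p i} => ℝ) f) z, w) =
        comb f z x := by
      funext i
      show (if hi : p i then (MeasurableEquiv.piCongrLeft (fun _ : {i // p i} => ℝ) f) z ⟨i, hi⟩
        else w ⟨i, hi⟩) = _
      unfold comb
      by_cases hi : p i
      · rw [dif_pos hi, dif_pos hi]
        have h3 := MeasurableEquiv.piCongrLeft_apply_apply (β := fun _ : {i // p i} => ℝ) f z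
          (f.symm ⟨i, hi⟩)
        rwa [Equiv.apply_symm_apply] at h3
      · rw [dif_neg hi, dif_neg hi, hx]
        simp only [dif_neg hi]
    rw [this]
  calc ∫⁻ w, cub {i // p i} ((fun z => (z, w)) ⁻¹' (e.symm ⁻¹' F)) ∂cub {i // ¬ p i}
      ≤ ∫⁻ w, θ ∂cub {i // ¬ p i} := lintegral_mono h2
    _ = θ * cub {i // ¬ p i} univ := lintegral_const _
    _ ≤ θ * 2 ^ Fintype.card I := by
        refine mul_le_mul_right ?_ _
        rw [cub_univ]
        exact pow_le_pow_right₀ (by norm_num) (Fintype.card_subtype_le _)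

end Vale.P188.H532
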