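import Vale.Agent.P188.H532.Path
import Vale.Agent.P188.H329.Uni
import Vale.Agent.P188.H329.ConnGeo
import Vale.Agent.P188.H893.Slice

/-!
# P188, route B, block CHAIN (helper893): random words along a sequence of windows
-/

set_option linter.all false

namespace Vale.P188.H532

open MeasureTheory Set
open scoped ENNReal
open Vale.Agent.P188.H329 (Rel InP prS prO so supU prO_some prOR_measurable)

variable {S E V ι L : Type} [Group S] [Group E] [MeasurableSpace E] [NormedAddCommGroup V]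
    [NormedSpace ℝ V] [Fintype ι] [DecidableEq ι] [Fintype L]

variable (G : Geo S E V ι L)

/-- the law of a word containing the universal word at full sizes: sets of small measure are hit with
small probability -/
theorem Geo.word_law {n n' : ℕ} {J : Fin n → L} {J' : Fin n' → Option L} {e : Fin n → Fin n'}
    {K : ℕ} (hU : ∀ ρ : Fin n' → ℝ, (∀ q, |ρ q| ≤ 1) → (∀ t, 1 ≤ ρ (e t)) →
      ∀ ε : ℝ, 0 < ε → ε ≤ 1 → ∀ C : ℝ, 0 ≤ C →
      ∀ (S : Type) [Group S] [MeasurableSpace S] (μ : Measure S) [SFinite μ] (s : L → ℝ → S),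
      Rel L G.cl s → (∀ i, Measurable fun q : S × ℝ => q.1 * s i q.2) →
      (∀ w : S, MeasurePreserving (fun x => x * w) μ μ) →
      ∀ (z0 : S) (B : Set S), MeasurableSet B →
      ENNReal.ofReal ε ≤ volume (Icc (fun _ => -1) (fun _ => 1) ∩
        {x : Fin n' → ℝ | z0 * prO s J' (fun q => ρ q * x q) ∈ B}) →
      ∀ P : Set S, MeasurableSet P → (∀ y ∈ P, InP s G.cg C z0 y) →
        μ P ≤ ENNReal.ofReal ((K * (1 + C) / ε) ^ K) * μ B)
    {θ : ℝ} (hθ : 0 < θ) (hθ1 : θ ≤ 1) {r : Fin n' → ℝ} (hr : ∀ q, |r q| ≤ 1)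
    (hr1 : ∀ t, 1 ≤ r (e t)) {R : Option ι → ℝ} (hR : ∀ j, 0 ≤ R j) (z0 : E) {B : Set E}
    (hB : MeasurableSet B) {ε : ℝ} (hε : 0 ≤ ε) (hB1 : G.ν B ≤ ENNReal.ofReal ε * G.ν (G.N R))
    (hεK : (K * (1 + G.C) / θ) ^ K * ε < 1) :
    cub (Fin n') {x | z0 * prO (G.lt R) J' (fun q => r q * x q) ∈ B} ≤ ENNReal.ofReal θ := by
  haveI := G.ν_mm
  haveI := G.ν_left
  haveI := G.ν_right
  haveI := G.ν_sf
  have hC := G.one_le_C
  have hm : MeasurableSet {x : Fin n' → ℝ | z0 * prO (G.lt R) J' (fun q => r q * x q) ∈ B} := by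
    have h1 : Measurable fun x : Fin n' → ℝ => z0 * prO (G.lt R) J' (fun q => r q * x q) :=
      prOR_measurable (G.lt_meas R) J' measurable_const
        (measurable_pi_lambda _ fun q => (measurable_pi_apply q).const_mul _)
    exact h1 hB
  rw [cub_apply hm]
  by_contra hcon
  push Not at hcon
  set P : Set E := (fun y => z0⁻¹ * y) ⁻¹' G.N R with hP
  have hPm : MeasurableSet P := (measurable_const_mul _) (G.N_meas R)
  have hPν : G.ν P = G.ν (G.N R) := measure_preimage_mul _ _ _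
  have h1 := hU r hr hr1 θ hθ hθ1 G.C (by linarith) E G.ν (G.lt R) (G.lt_rel R) (G.lt_meas R)
    (fun w => measurePreserving_mul_right G.ν w) z0 B hB hcon.le P hPm (by
      intro y hy
      obtain ⟨K', x, hx, hxy⟩ := G.N_gen R hR (z0⁻¹ * y) hy
      refine ⟨K', x, hx, ?_⟩
      rw [one_mul] at hxy
      rw [← hxy, mul_inv_cancel_left])
  rw [hPν] at h1
  have h2 : ENNReal.ofReal ((K * (1 + G.C) / θ) ^ K) * G.ν B ≤
      ENNReal.ofReal ((K * (1 + G.C) / θ) ^ K * ε) * G.ν (G.N R) := by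
    rw [ENNReal.ofReal_mul (by positivity), mul_assoc]
    exact mul_le_mul_right hB1 _
  have h3 : ENNReal.ofReal ((K * (1 + G.C) / θ) ^ K * ε) * G.ν (G.N R) < 1 * G.ν (G.N R) := by
    refine ENNReal.mul_lt_mul_left (G.ν_N_pos R hR).ne' (G.ν_N_top R).ne ?_
    rw [← ENNReal.ofReal_one]
    exact (ENNReal.ofReal_lt_ofReal_iff one_pos).2 hεK
  rw [one_mul] at h3
  exact absurd (h1.trans h2) (not_le.2 h3)

/-! ### words in blocks -/

/-- one block: the universal word at the extents `W q - a` -/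
noncomputable def blkW {m : ℕ} (J : Fin m → L) (W : ℕ → Option ι → ℝ) (a : ℝ) (q : Fin (m + 1))
    (x : Fin ((m + 1) * m) → ℝ) : E :=
  prS (G.lt (sh (W q) (-a))) J fun t => x (finProdFinEquiv (q, t))

/-- the product of the first `k` blocks -/
noncomputable def pre {m : ℕ} (J : Fin m → L) (W : ℕ → Option ι → ℝ) (a : ℝ) :
    ℕ → (Fin ((m + 1) * m) → ℝ) → E
  | 0, _ => 1
  | k + 1, x => pre J W a k x * if h : k < m + 1 then blkW G J W a ⟨k, h⟩ x else 1

theorem prod_ofFn_mul {M : Type*} [Monoid M] {m n : ℕ} (f : Fin (m * n) → M) :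
    (List.ofFn f).prod =
      (List.ofFn fun q : Fin m => (List.ofFn fun t : Fin n => f (finProdFinEquiv (q, t))).prod).prod := by
  rw [List.ofFn_mul, List.prod_flatten, List.map_ofFn]
  congr 2
  funext q
  simp only [Function.comp]
  congr 2
  funext t
  congr 1
  apply Fin.ext
  simp [finProdFinEquiv]
  ring

theorem pre_eq {m : ℕ} (J : Fin m → L) (W : ℕ → Option ι → ℝ) (a : ℝ) (x : Fin ((m + 1) * m) → ℝ) :
    pre G J W a (m + 1) x = (List.ofFn fun q : Fin (m + 1) => blkW G J W a q x).prod := by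
  have key : ∀ k, k ≤ m + 1 → pre G J W a k x =
      (List.ofFn fun q : Fin k => if h : (q : ℕ) < m + 1 then blkW G J W a ⟨q, h⟩ x else 1).prod := by
    intro k
    induction k with
    | zero => intro _; simp [pre]
    | succ k ih =>
      intro hk
      rw [pre, ih (by omega), List.ofFn_succ', List.concat_eq_append, List.prod_append,
        List.prod_singleton]
      simp
  rw [key (m + 1) le_rfl]
  congr 2
  funext q
  rw [dif_pos q.2]

/-- the sizes of the letters of the total word, relative to `ρ⁺` -/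
noncomputable def rat {m : ℕ} (J : Fin m → L) (W : ℕ → Option ι → ℝ) (ρp : Option ι → ℝ)
    (i : Fin ((m + 1) * m)) : ℝ :=
  Real.exp (G.τ (J (finProdFinEquiv.symm i).2) *
    (W (finProdFinEquiv.symm i).1 (G.ray (J (finProdFinEquiv.symm i).2)) -
      ρp (G.ray (J (finProdFinEquiv.symm i).2))))

theorem pre_total {m : ℕ} (J : Fin m → L) (W : ℕ → Option ι → ℝ) (a : ℝ) (ρp : Option ι → ℝ)
    (x : Fin ((m + 1) * m) → ℝ) :
    pre G J W a (m + 1) x = prO (G.lt (sh ρp (-a)))
      (fun i => some (J (finProdFinEquiv.symm i).2)) (fun i => rat G J W ρp i * x i) := by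
  rw [pre_eq]
  unfold prO
  rw [prod_ofFn_mul]
  congr 2
  funext q
  unfold blkW prS
  congr 2
  funext t
  simp only [so, Option.elim, Equiv.symm_apply_apply, rat]
  show G.s (J t) _ = G.s (J t) _
  congr 1
  rw [← mul_assoc, ← Real.exp_add]
  congr 2
  simp only [sh]
  ring

theorem blkW_mem {m : ℕ} {J : Fin m → L} {W : ℕ → Option ι → ℝ} {a : ℝ} (ha : m * G.C ≤ a)
    {q : Fin (m + 1)} (hW : ∀ j, a ≤ W q j) {x : Fin ((m + 1) * m) → ℝ}
    (hx : ∀ t, |x (finProdFinEquiv (q, t))| ≤ 1) : blkW G J W a q x ∈ G.N (W q) := by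
  have hR : ∀ j, 0 ≤ sh (W q) (-a) j := fun j => by
    have := hW j
    simp only [sh]; linarith
  have h1 := G.mem_word hR (k := 0) (a := 1) (G.N_one _ fun j => by
    simp only [sh]
    have := hW j
    push_cast
    linarith) J (fun t => x (finProdFinEquiv (q, t))) hx
  rw [one_mul] at h1
  refine G.N_mono _ _ (fun j => ?_) h1
  simp only [sh]
  push_cast
  linarith

theorem total_mem {m : ℕ} {J : Fin m → L} {W : ℕ → Option ι → ℝ} {a : ℝ} {ρp : Option ι → ℝ}
    (ha : ((m + 1) * m : ℕ) * G.C ≤ a) (hp : ∀ j, a ≤ ρp j) (hW : ∀ q ≤ m, ∀ j, W q j ≤ ρp j)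
    {x : Fin ((m + 1) * m) → ℝ} (hx : ∀ i, |x i| ≤ 1) :
    pre G J W a (m + 1) x ∈ G.N ρp := by
  have hR : ∀ j, 0 ≤ sh ρp (-a) j := fun j => by
    have := hp j
    simp only [sh]; linarith
  have e : pre G J W a (m + 1) x = 1 * prS (G.lt (sh ρp (-a)))
      (fun i => J (finProdFinEquiv.symm i).2) (fun i => rat G J W ρp i * x i) := by
    rw [pre_total G J W a ρp x, one_mul]
    rfl
  rw [e]
  have h1 := G.mem_word hR (k := 0) (a := 1) (G.N_one _ fun j => by
    simp only [sh]
    have := hp j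
    push_cast
    linarith) (fun i => J (finProdFinEquiv.symm i).2) (fun i => rat G J W ρp i * x i) (fun i => by
      rw [abs_mul]
      refine mul_le_one₀ ?_ (abs_nonneg _) (hx i)
      unfold rat
      rw [abs_of_pos (Real.exp_pos _), Real.exp_le_one_iff]
      refine mul_nonpos_of_nonneg_of_nonpos (G.τ_pos _).le ?_
      have := hW (finProdFinEquiv.symm i).1 (by omega) (G.ray (J (finProdFinEquiv.symm i).2))
      linarith)
  refine G.N_mono _ _ (fun j => ?_) h1
  simp only [sh]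
  have : ((0 + (m + 1) * m : ℕ) : ℝ) * G.C ≤ a := by rwa [zero_add]
  linarith

/-! ### measurability and slices -/

theorem cub_le_of {I : Type*} [Fintype I] {A B : Set (I → ℝ)}
    (h : ∀ z ∈ A, (∀ i, |z i| ≤ 1) → z ∈ B) : cub I A ≤ cub I B := by
  rw [cub_eq, Measure.restrict_apply' measurableSet_Icc, Measure.restrict_apply' measurableSet_Icc]
  refine measure_mono ?_
  rintro z ⟨hz, hz'⟩
  exact ⟨h z hz fun i => abs_le.2 ⟨hz'.1 i, hz'.2 i⟩, hz'⟩

theorem blkW_meas {m : ℕ} (J : Fin m → L) (W : ℕ → Option ι → ℝ) (a : ℝ) (q : Fin (m + 1)) :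
    Measurable (blkW G J W a q) := by
  haveI := G.ν_mm
  have h := prOR_measurable (G.lt_meas (sh (W q) (-a))) (fun t => some (J t))
    (β := Fin ((m + 1) * m) → ℝ) (a := fun _ => (1 : E)) measurable_const
    (x := fun x t => x (finProdFinEquiv (q, t)))
    (measurable_pi_lambda _ fun t => measurable_pi_apply _)
  simp only [one_mul] at h
  exact h

theorem pre_meas {m : ℕ} (J : Fin m → L) (W : ℕ → Option ι → ℝ) (a : ℝ) (k : ℕ) :
    Measurable (pre G J W a k : (Fin ((m + 1) * m) → ℝ) → E) := by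
  haveI := G.ν_mm
  induction k with
  | zero => exact measurable_const
  | succ k ih =>
    by_cases h : k < m + 1
    · have e : (pre G J W a (k + 1) : (Fin ((m + 1) * m) → ℝ) → E) =
          fun x => pre G J W a k x * blkW G J W a ⟨k, h⟩ x := by
        funext x
        rw [pre, dif_pos h]
      rw [e]
      exact ih.mul (blkW_meas G J W a _)
    · have e : (pre G J W a (k + 1) : (Fin ((m + 1) * m) → ℝ) → E) = pre G J W a k := by
        funext x
        rw [pre, dif_neg h, mul_one]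
      rw [e]
      exact ih

theorem pre_congr {m : ℕ} (J : Fin m → L) (W : ℕ → Option ι → ℝ) (a : ℝ) {k : ℕ}
    {x x' : Fin ((m + 1) * m) → ℝ}
    (h : ∀ q : Fin (m + 1), (q : ℕ) < k → ∀ t, x (finProdFinEquiv (q, t)) =
      x' (finProdFinEquiv (q, t))) : pre G J W a k x = pre G J W a k x' := by
  induction k with
  | zero => rfl
  | succ k ih =>
    rw [pre, pre, ih fun q hq => h q (by omega)]
    congr 1
    by_cases hk : k < m + 1
    · rw [dif_pos hk, dif_pos hk]
      unfold blkW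
      congr 1
      funext t
      exact h ⟨k, hk⟩ (Nat.lt_succ_self k) t
    · rw [dif_neg hk, dif_neg hk]

/-- the indices of one block -/
def blkE {m : ℕ} (q : Fin (m + 1)) :
    Fin m ≃ {i : Fin ((m + 1) * m) // (finProdFinEquiv.symm i).1 = q} where
  toFun t := ⟨finProdFinEquiv (q, t), by simp⟩
  invFun i := (finProdFinEquiv.symm i.1).2
  left_inv t := by simp
  right_inv i := by
    obtain ⟨i, hi⟩ := i
    apply Subtype.ext
    simp only
    rw [← hi, Prod.mk.eta, Equiv.apply_symm_apply]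

theorem comb_self {m : ℕ} (q : Fin (m + 1)) (z : Fin m → ℝ) (x : Fin ((m + 1) * m) → ℝ)
    (t : Fin m) : comb (blkE q) z x (finProdFinEquiv (q, t)) = z t := by
  unfold comb
  rw [dif_pos (by simp)]
  congr 1
  exact (blkE q).symm_apply_apply t

theorem comb_other {m : ℕ} {q q' : Fin (m + 1)} (h : q' ≠ q) (z : Fin m → ℝ)
    (x : Fin ((m + 1) * m) → ℝ) (t : Fin m) :
    comb (blkE q) z x (finProdFinEquiv (q', t)) = x (finProdFinEquiv (q', t)) := by
  unfold comb
  rw [dif_neg (by simpa using h)]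

theorem pre_comb {m : ℕ} (J : Fin m → L) (W : ℕ → Option ι → ℝ) (a : ℝ) (q : Fin (m + 1))
    (z : Fin m → ℝ) (x : Fin ((m + 1) * m) → ℝ) :
    pre G J W a q (comb (blkE q) z x) = pre G J W a q x :=
  pre_congr G J W a fun q' hq' t => comb_other (by
    intro h
    rw [h] at hq'
    exact lt_irrefl _ hq') z x t

theorem pre_comb_succ {m : ℕ} (J : Fin m → L) (W : ℕ → Option ι → ℝ) (a : ℝ) (q : Fin (m + 1))
    (z : Fin m → ℝ) (x : Fin ((m + 1) * m) → ℝ) :
    pre G J W a (q + 1) (comb (blkE q) z x) =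
      pre G J W a q x * prS (G.lt (sh (W q) (-a))) J z := by
  rw [pre, pre_comb, dif_pos q.2]
  congr 1
  unfold blkW
  congr 1
  funext t
  exact comb_self q z x t

/-- **CHAIN, abstract form.** -/
theorem chain_abs : ∃ (m : ℕ) (o : Fin m → Option ι) (C' ε0 : ℝ), 0 ≤ C' ∧ 0 < ε0 ∧
    ∀ (W : ℕ → Option ι → ℝ) (ρp : Option ι → ℝ) (Gd : ℕ → Set E) (Be : Set E),
      (∀ q, MeasurableSet (Gd q)) → MeasurableSet Be →
      (∀ q ≤ m, ∀ j, C' ≤ W q j ∧ W q j ≤ ρp j) → (∀ t : Fin m, W (t + 1) (o t) = ρp (o t)) →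
      (1 : E) ∈ Gd 0 →
      (∀ q ≤ m, ∀ a ∈ Gd q, G.ν {n | n ∈ G.N (W q) ∧ a * n ∉ Gd (q + 1)} ≤
        ENNReal.ofReal ε0 * G.ν (G.N (W q))) →
      G.ν Be ≤ ENNReal.ofReal ε0 * G.ν (G.N ρp) → ∃ e ∈ G.N ρp, e ∉ Be ∧ e ∈ Gd (m + 1) := by
  classical
  haveI := G.ν_mm
  haveI := G.ν_left
  haveI := G.ν_sf
  have hC := G.one_le_C
  have hC0 : 0 ≤ G.C := by linarith
  obtain ⟨m, J, HU⟩ := supU L G.cl
  have hmono : StrictMono fun t : Fin m => (finProdFinEquiv (t.succ, t) : Fin ((m + 1) * m)) := by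
    intro t t' htt
    simp only [finProdFinEquiv, Equiv.coe_fn_mk, Fin.lt_def, Fin.val_succ]
    have h1 : (t : ℕ) < t' := htt
    have h2 := t.2
    have h3 : m * ((t : ℕ) + 1) + m ≤ m * ((t' : ℕ) + 1) := by
      have : (t : ℕ) + 1 + 1 ≤ (t' : ℕ) + 1 := by omega
      calc m * ((t : ℕ) + 1) + m = m * ((t : ℕ) + 1 + 1) := by ring
        _ ≤ m * ((t' : ℕ) + 1) := Nat.mul_le_mul_left _ this
    omega
  obtain ⟨K, hK, hU⟩ := HU ((m + 1) * m) (fun i => some (J (finProdFinEquiv.symm i).2))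
    (fun t => finProdFinEquiv (t.succ, t)) hmono (fun t => by simp) G.cg 1 one_pos
  obtain ⟨K1, hK1, hU1⟩ := HU m (fun t => some (J t)) id strictMono_id (fun t => rfl) G.cg 1 one_pos
  set θ : ℝ := 1 / (m + 3) with hθ
  have hθ0 : 0 < θ := by positivity
  have hθ1 : θ ≤ 1 := by
    rw [hθ, div_le_one (by positivity)]
    have : (0 : ℝ) ≤ m := Nat.cast_nonneg _
    linarith
  set C' : ℝ := (((m + 1) * m : ℕ) : ℝ) * G.C + m * G.C with hC'
  have hC'0 : 0 ≤ C' := by positivity
  set A : ℝ := (K * (1 + G.C) / θ) ^ K with hA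
  set A1 : ℝ := (K1 * (1 + G.C) / θ) ^ K1 with hA1
  have hA0 : 0 ≤ A := by positivity
  have hA10 : 0 ≤ A1 := by positivity
  set X : ℝ := Real.exp (G.C * (1 + C')) with hX
  have hX0 : 0 < X := Real.exp_pos _
  set ε0 : ℝ := 1 / (2 * X * (A + A1 + 1)) with hε0
  have hε0p : 0 < ε0 := by positivity
  have hb : ∀ T, 0 ≤ T → T ≤ A + A1 → T * (ε0 * X) < 1 := by
    intro T hT hT'
    have e : ε0 * X = 1 / (2 * (A + A1 + 1)) := by rw [hε0]; field_simp
    rw [e, mul_one_div, div_lt_one (by positivity)]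
    linarith
  refine ⟨m, fun t => G.ray (J t), C', ε0, hC'0, hε0p, ?_⟩
  intro W ρp Gd Be hGd hBe hW hWt h1 hstep hBeν
  have hWpos : ∀ q ≤ m, ∀ j, 0 ≤ sh (W q) (-C') j := fun q hq j => by
    have := (hW q hq j).1
    simp only [sh]; linarith
  have hρp : ∀ j, C' ≤ ρp j := fun j => ((hW 0 (Nat.zero_le _) j).1).trans (hW 0 (Nat.zero_le _) j).2
  have hρppos : ∀ j, 0 ≤ sh ρp (-C') j := fun j => by
    have := hρp j
    simp only [sh]; linarith
  have hback : ∀ ρ : Option ι → ℝ, sh (sh ρ (-C')) C' = ρ := fun ρ => by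
    rw [sh_sh, neg_add_cancel, sh_zero]
  -- comparison with the smaller boxes
  have hdbl : ∀ ρ : Option ι → ℝ, (∀ j, 0 ≤ sh ρ (-C') j) → ∀ B : Set E,
      G.ν B ≤ ENNReal.ofReal ε0 * G.ν (G.N ρ) →
      G.ν B ≤ ENNReal.ofReal (ε0 * X) * G.ν (G.N (sh ρ (-C'))) := by
    intro ρ hρ B hB
    have h2 := G.ν_dbl _ hρ C' hC'0
    rw [hback] at h2
    refine hB.trans ((mul_le_mul_right h2 _).trans ?_)
    rw [← mul_assoc, ← ENNReal.ofReal_mul hε0p.le]
  -- the events
  set F : ℕ → Set (Fin ((m + 1) * m) → ℝ) := fun q =>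
    {x | pre G J W C' q x ∈ Gd q ∧ pre G J W C' (q + 1) x ∉ Gd (q + 1)} with hF
  have hFm : ∀ q, MeasurableSet (F q) := fun q =>
    (pre_meas G J W C' q (hGd q)).inter (pre_meas G J W C' (q + 1) (hGd (q + 1))).compl
  have hFq : ∀ q : Fin (m + 1), cub (Fin ((m + 1) * m)) (F q) ≤
      ENNReal.ofReal θ * 2 ^ Fintype.card (Fin ((m + 1) * m)) := by
    intro q
    refine slice_le (blkE q) (hFm q) fun x => ?_
    have hq : (q : ℕ) ≤ m := by omega
    by_cases hx : pre G J W C' q x ∈ Gd q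
    · set B0 : Set E := {n | n ∈ G.N (W q) ∧ pre G J W C' q x * n ∉ Gd (q + 1)} with hB0
      have hB0m : MeasurableSet B0 :=
        (G.N_meas _).inter ((measurable_const_mul _) (hGd (q + 1))).compl
      set B : Set E := (fun e => (pre G J W C' q x)⁻¹ * e) ⁻¹' B0 with hB
      have hBm : MeasurableSet B := (measurable_const_mul _) hB0m
      have hBν : G.ν B = G.ν B0 := measure_preimage_mul _ _ _
      have hB1 := hdbl (W q) (hWpos q hq) B (hBν.le.trans (hstep q hq _ hx))
      have h2 := G.word_law (J := J) hU1 hθ0 hθ1 (r := fun _ => 1) (fun _ => by simp) (fun _ => le_rfl)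
        (hWpos q hq) (pre G J W C' q x) hBm (by positivity : 0 ≤ ε0 * X) hB1
        (hb A1 hA10 (by linarith))
      refine le_trans (cub_le_of ?_) h2
      intro z hz hz1
      have hz' : pre G J W C' q (comb (blkE q) z x) ∈ Gd q ∧
        pre G J W C' (q + 1) (comb (blkE q) z x) ∉ Gd (q + 1) := hz
      rw [pre_comb, pre_comb_succ] at hz'
      have e : prO (G.lt (sh (W q) (-C'))) (fun t => some (J t)) (fun t => 1 * z t) =
          prS (G.lt (sh (W q) (-C'))) J z := by
        simp only [one_mul]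
        exact prO_some _ J z
      show pre G J W C' q x * prO (G.lt (sh (W q) (-C'))) (fun t => some (J t))
        (fun t => 1 * z t) ∈ B
      rw [e]
      show (pre G J W C' q x)⁻¹ * (pre G J W C' q x * prS (G.lt (sh (W q) (-C'))) J z) ∈ B0
      rw [inv_mul_cancel_left]
      refine ⟨?_, hz'.2⟩
      have h3 := blkW_mem G (J := J) (W := W) (a := C') (by
        rw [hC']
        have : 0 ≤ (((m + 1) * m : ℕ) : ℝ) * G.C := by positivity
        linarith) (q := q) (fun j => (hW q hq j).1) (x := comb (blkE q) z x) (fun t => by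
          rw [comb_self]; exact hz1 t)
      have h4 : blkW G J W C' q (comb (blkE q) z x) = prS (G.lt (sh (W q) (-C'))) J z := by
        unfold blkW
        congr 1
        funext t
        exact comb_self q z x t
      rwa [h4] at h3
    · refine le_trans (le_of_eq ?_) zero_le'
      have : {z : Fin m → ℝ | comb (blkE q) z x ∈ F q} = ∅ := by
        ext z
        simp only [mem_setOf_eq, mem_empty_iff_false, iff_false]
        intro hz
        have hz' : pre G J W C' q (comb (blkE q) z x) ∈ Gd q := hz.1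
        rw [pre_comb] at hz'
        exact hx hz'
      rw [this, measure_empty]
  -- the end point
  set Fe : Set (Fin ((m + 1) * m) → ℝ) := {x | pre G J W C' (m + 1) x ∈ Be} with hFe
  have hFe1 : cub (Fin ((m + 1) * m)) Fe ≤ ENNReal.ofReal θ := by
    have hB1 := hdbl ρp hρppos Be hBeν
    have h2 := G.word_law (J := J) hU hθ0 hθ1 (r := rat G J W ρp) (fun i => by
      unfold rat
      rw [abs_of_pos (Real.exp_pos _), Real.exp_le_one_iff]
      refine mul_nonpos_of_nonneg_of_nonpos (G.τ_pos _).le ?_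
      have := (hW (finProdFinEquiv.symm i).1 (by omega) (G.ray (J (finProdFinEquiv.symm i).2))).2
      linarith) (fun t => by
        unfold rat
        simp only [Equiv.symm_apply_apply]
        have := hWt t
        simp only [Fin.val_succ]
        rw [this, sub_self, mul_zero, Real.exp_zero]) hρppos 1 hBe (by positivity : 0 ≤ ε0 * X) hB1
      (hb A hA0 (by linarith))
    refine le_trans (measure_mono ?_) h2
    intro x hx
    show 1 * _ ∈ Be
    rw [one_mul, ← pre_total G J W C' ρp x]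
    exact hx
  -- a good point
  have hbad : cub (Fin ((m + 1) * m)) ((⋃ q : Fin (m + 1), F q) ∪ Fe) <
      cub (Fin ((m + 1) * m)) univ := by
    rw [cub_univ]
    set T : ℝ≥0∞ := 2 ^ Fintype.card (Fin ((m + 1) * m)) with hT
    have hT0 : T ≠ 0 := by rw [hT]; positivity
    have hTt : T ≠ ⊤ := by rw [hT]; exact ENNReal.pow_ne_top (by norm_num)
    have hT1 : 1 ≤ T := one_le_pow₀ (by norm_num)
    calc cub (Fin ((m + 1) * m)) ((⋃ q : Fin (m + 1), F q) ∪ Fe)
        ≤ cub (Fin ((m + 1) * m)) (⋃ q : Fin (m + 1), F q) + cub (Fin ((m + 1) * m)) Fe :=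
          measure_union_le _ _
      _ ≤ (∑ q : Fin (m + 1), cub (Fin ((m + 1) * m)) (F q)) + ENNReal.ofReal θ * T := by
          refine add_le_add (measure_iUnion_fintype_le _ _) (hFe1.trans ?_)
          calc ENNReal.ofReal θ = ENNReal.ofReal θ * 1 := (mul_one _).symm
            _ ≤ _ := mul_le_mul_right hT1 _
      _ ≤ (∑ q : Fin (m + 1), ENNReal.ofReal θ * T) + ENNReal.ofReal θ * T :=
          add_le_add (Finset.sum_le_sum fun q _ => hFq q) le_rfl
      _ = ENNReal.ofReal ((m + 2) * θ) * T := by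
          rw [Finset.sum_const, Finset.card_univ, Fintype.card_fin, nsmul_eq_mul,
            ENNReal.ofReal_mul (by positivity),
            show ((m : ℝ) + 2) = ((m + 2 : ℕ) : ℝ) by push_cast; ring, ENNReal.ofReal_natCast]
          push_cast
          ring
      _ < 1 * T := by
          refine ENNReal.mul_lt_mul_left hT0 hTt ?_
          rw [← ENNReal.ofReal_one]
          refine (ENNReal.ofReal_lt_ofReal_iff one_pos).2 ?_
          rw [hθ, mul_one_div, div_lt_one (by positivity)]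
          linarith
      _ = T := one_mul _
  obtain ⟨x, hxc, hx⟩ : ∃ x : Fin ((m + 1) * m) → ℝ, (∀ i, |x i| ≤ 1) ∧
      x ∉ (⋃ q : Fin (m + 1), F q) ∪ Fe := by
    by_contra hcon
    push Not at hcon
    have h2 : cub (Fin ((m + 1) * m)) univ ≤
        cub (Fin ((m + 1) * m)) ((⋃ q : Fin (m + 1), F q) ∪ Fe) :=
      cub_le_of fun z _ hz => hcon z hz
    exact absurd h2 (not_le.2 hbad)
  rw [mem_union, not_or, mem_iUnion, not_exists] at hx
  have hall : ∀ k ≤ m + 1, pre G J W C' k x ∈ Gd k := by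
    intro k
    induction k with
    | zero => intro _; exact h1
    | succ k ih =>
      intro hk
      by_contra hcon
      exact hx.1 ⟨k, by omega⟩ ⟨ih (by omega), hcon⟩
  refine ⟨pre G J W C' (m + 1) x, ?_, hx.2, hall (m + 1) le_rfl⟩
  exact total_mem G (by
    rw [hC']
    have : 0 ≤ (m : ℝ) * G.C := by positivity
    linarith) hρp (fun q hq j => (hW q hq j).2) hxc

end Vale.P188.H532
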