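import Vale.Agent.P188.H532.Path

/-!
# P188, route B, block SUM (helper893): constants which do not depend on the window give (ES)
-/

set_option linter.all false

namespace Vale.P188.H532

open MeasureTheory Set
open scoped ENNReal

variable {S E V ι L : Type} [Group S] [Group E] [MeasurableSpace E] [NormedAddCommGroup V]
    [NormedSpace ℝ V] [Fintype ι] [DecidableEq ι] [Fintype L]

/-- windows near `x p`, with neutral extent `d x`, `d x / lam` or `d x / lam ^ 2` -/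
def Win3 (G : Geo S E V ι L) (κ d lam x : ℝ) (ρ : Option ι → ℝ) : Prop :=
  (ρ none = d * x ∨ ρ none = d * x / lam ∨ ρ none = d * x / lam ^ 2) ∧
    ∀ j, |ρ (some j) - x * G.p j| ≤ κ * x

/-- at every location there is one constant for all the windows near `x p` -/
def CH (G : Geo S E V ι L) (𝓕 : Set (S → S)) : Prop :=
  ∃ c7 κ lam : ℝ, 0 < c7 ∧ 0 < κ ∧ 1 < lam ∧ lam ≤ 2 ∧ (lam - 1) * G.C ≤ κ ∧
    ∀ η : ℝ, 0 < η → ∃ d x0 : ℝ, 0 < d ∧ ∀ Ψ ∈ 𝓕, ∀ x : ℝ, x0 ≤ x → ∃ c : S → V,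
      ∀ (g : S) (ρ : Option ι → ℝ), Win3 G κ d lam x ρ → IsC G Ψ (c7 * x) (η * x) η ρ g (c g)

variable {G : Geo S E V ι L} {Λ : ℝ} {Ψ : S → S}

/-- two small sets do not cover -/
theorem exists_goodS {α : Type*} [MeasurableSpace α] {μ : Measure α} {N A B : Set α} {a b : ℝ}
    (h0 : 0 < μ N) (h1 : μ N < ⊤) (ha : 0 ≤ a) (hb : 0 ≤ b) (hab : a + b < 1)
    (hA : μ A ≤ ENNReal.ofReal a * μ N) (hB : μ B ≤ ENNReal.ofReal b * μ N) :
    ∃ n ∈ N, n ∉ A ∧ n ∉ B := by
  by_contra hcon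
  push Not at hcon
  have hsub : N ⊆ A ∪ B := by
    intro n hn
    by_cases h : n ∈ A
    · exact Or.inl h
    · exact Or.inr (hcon n hn h)
  have h2 : μ N ≤ ENNReal.ofReal (a + b) * μ N := by
    calc μ N ≤ μ (A ∪ B) := measure_mono hsub
      _ ≤ μ A + μ B := measure_union_le _ _
      _ ≤ ENNReal.ofReal a * μ N + ENNReal.ofReal b * μ N := add_le_add hA hB
      _ = ENNReal.ofReal (a + b) * μ N := by rw [ENNReal.ofReal_add ha hb, add_mul]
  have h3 : ENNReal.ofReal (a + b) * μ N < 1 * μ N := by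
    refine ENNReal.mul_lt_mul_left h0.ne' h1.ne ?_
    rw [← ENNReal.ofReal_one]
    exact (ENNReal.ofReal_lt_ofReal_iff one_pos).2 hab
  rw [one_mul] at h3
  exact absurd h2 (not_le.2 h3)

theorem IsC.uniq {r r' ω ω' ε ε' : ℝ} {ρ : Option ι → ℝ} {g : S} {c c' : V} (hr : 0 ≤ r)
    (hr' : 0 ≤ r') (hρ : ∀ j, 0 ≤ ρ j) (hε : 0 ≤ ε) (hε' : 0 ≤ ε') (h1 : ε + ε' < 1)
    (h : IsC G Ψ r ω ε ρ g c) (h' : IsC G Ψ r' ω' ε' ρ g c') : ‖c - c'‖ ≤ ω + ω' := by
  obtain ⟨n, hn, hA, hB⟩ := exists_goodS (G.ν_N_pos ρ hρ) (G.ν_N_top ρ) hε hε' h1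
    (h 1 (Or.inl (by rw [G.l_one]; exact hr))) (h' 1 (Or.inl (by rw [G.l_one]; exact hr')))
  have h2 : ‖Wd G Ψ (g * G.inc n * 1) - c‖ ≤ ω := not_lt.1 fun hc => hA ⟨hn, hc⟩
  have h3 : ‖Wd G Ψ (g * G.inc n * 1) - c'‖ ≤ ω' := not_lt.1 fun hc => hB ⟨hn, hc⟩
  calc ‖c - c'‖ = ‖-(Wd G Ψ (g * G.inc n * 1) - c) + (Wd G Ψ (g * G.inc n * 1) - c')‖ := by
        congr 1; abel
    _ ≤ ω + ω' := (norm_add_le _ _).trans (by rw [norm_neg]; exact add_le_add h2 h3)

/-- moving the location inside the box -/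
theorem IsC.move {r ω ε : ℝ} {ρ : Option ι → ℝ} {g : S} {c c' : V} {e : E} (hr : 0 ≤ r)
    (hρ : ∀ j, G.C ≤ ρ j) (hε : 0 ≤ ε) (hε1 : ε * Real.exp (G.C * (1 + G.C)) ≤ 1 / 4)
    (he : e ∈ G.N (sh ρ (-G.C))) (h : IsC G Ψ r ω ε ρ g c)
    (h' : IsC G Ψ r ω ε ρ (g * G.inc e) c') : ‖c - c'‖ ≤ 2 * ω := by
  haveI := G.ν_left
  have hρ' : ∀ j, 0 ≤ sh ρ (-G.C) j := fun j => by
    have := hρ j
    unfold sh; linarith
  have hsh : sh (sh ρ (-G.C)) G.C = ρ := by
    funext j; unfold sh; ring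
  have hdbl := G.ν_dbl _ hρ' G.C (by linarith [G.one_le_C])
  rw [hsh] at hdbl
  have hle : ENNReal.ofReal ε * G.ν (G.N ρ) ≤ ENNReal.ofReal (1 / 4) * G.ν (G.N (sh ρ (-G.C))) := by
    calc ENNReal.ofReal ε * G.ν (G.N ρ)
        ≤ ENNReal.ofReal ε * (ENNReal.ofReal (Real.exp (G.C * (1 + G.C))) *
            G.ν (G.N (sh ρ (-G.C)))) := mul_le_mul_right hdbl _
      _ ≤ _ := by
          rw [← mul_assoc, ← ENNReal.ofReal_mul hε]
          exact mul_le_mul_left (ENNReal.ofReal_le_ofReal hε1) _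
  have hA : G.ν ((fun n => e * n) ⁻¹'
      {n | n ∈ G.N ρ ∧ ω < ‖Wd G Ψ (g * G.inc n * 1) - c‖}) ≤
      ENNReal.ofReal (1 / 4) * G.ν (G.N (sh ρ (-G.C))) := by
    haveI := G.ν_mm
    rw [measure_preimage_mul]
    exact (h 1 (Or.inl (by rw [G.l_one]; exact hr))).trans hle
  have hB := (h' 1 (Or.inl (by rw [G.l_one]; exact hr))).trans hle
  obtain ⟨n, hn, hnA, hnB⟩ := exists_goodS (G.ν_N_pos _ hρ') (G.ν_N_top _) (by norm_num)
    (by norm_num) (by norm_num) hA hB
  have hen : e * n ∈ G.N ρ := by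
    have := G.N_mul _ hρ' e he n hn
    rwa [hsh] at this
  have hnρ : n ∈ G.N ρ := G.N_mono _ _ (fun j => by unfold sh; linarith [G.one_le_C]) hn
  have h2 : ‖Wd G Ψ (g * G.inc (e * n) * 1) - c‖ ≤ ω := not_lt.1 fun hc => hnA ⟨hen, hc⟩
  have h3 : ‖Wd G Ψ (g * G.inc e * G.inc n * 1) - c'‖ ≤ ω := not_lt.1 fun hc => hnB ⟨hnρ, hc⟩
  rw [map_mul, ← mul_assoc g] at h2
  calc ‖c - c'‖ = ‖-(Wd G Ψ (g * G.inc e * G.inc n * 1) - c) +
        (Wd G Ψ (g * G.inc e * G.inc n * 1) - c')‖ := by congr 1; abel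
    _ ≤ ω + ω := (norm_add_le _ _).trans (by rw [norm_neg]; exact add_le_add h2 h3)
    _ = 2 * ω := by ring

theorem Wd_measI (hQ : QIe G Λ Ψ) (g h : S) (P : Set V) :
    MeasurableSet {e : E | Wd G Ψ (g * G.inc e * h) ∈ P} := by
  have h1 := hQ.meas g h {s | G.θ s - G.θ (g * h) ∈ P}
  convert h1 using 1
  ext e
  simp only [mem_setOf_eq]
  unfold Wd
  rw [G.θ_mul (g * G.inc e) h, G.θ_mul g, G.θ_inc, add_zero, G.θ_mul g h]

/-- **Moving the location by `h`.** `ρA`, `ρB` are slightly smaller windows. -/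
theorem IsC.shift (hQ : QIe G Λ Ψ) {r ω ε : ℝ} {ρ ρA ρB : Option ι → ℝ} {g h : S} {c : S → V}
    (hr : 0 ≤ r) (hω : 0 ≤ ω) (hρ : ∀ j, G.C ≤ ρ j) (hρA : ∀ j, G.C ≤ ρA j) (hρB : ∀ j, 0 ≤ ρB j)
    (hε : 0 ≤ ε) (hε1 : ε * Real.exp (G.C * (1 + G.C)) ≤ 1 / 4)
    (hl : G.l h ≤ r)
    (hAB : ∀ m ∈ G.N ρB, G.cj h m ∈ G.N (sh ρA (-G.C)))
    (hA0 : ∀ n ∈ G.N (sh ρA (-G.C)), G.cj h⁻¹ n ∈ G.N (sh ρ (-G.C)))
    (hcA : IsC G Ψ r ω ε ρA g (c g)) (hcB : ∀ u, IsC G Ψ r ω ε ρB u (c u))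
    (hc : ∀ u, IsC G Ψ r ω ε ρ u (c u)) : ‖c g - c (g * h)‖ ≤ 4 * ω := by
  haveI := G.ν_left
  haveI := G.ν_right
  haveI := G.ν_mm
  haveI := G.ν_sf
  have hC := G.one_le_C
  have hA' : ∀ j, 0 ≤ sh ρA (-G.C) j := fun j => by
    have := hρA j
    unfold sh; linarith
  have hsh : sh (sh ρA (-G.C)) G.C = ρA := by
    funext j; unfold sh; ring
  have hdbl := G.ν_dbl _ hA' G.C (by linarith [G.one_le_C])
  rw [hsh] at hdbl
  have hexp1 : 1 ≤ Real.exp (G.C * (1 + G.C)) := Real.one_le_exp (by nlinarith)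
  have hε4 : ε ≤ 1 / 4 := by nlinarith
  have hle : ENNReal.ofReal ε * G.ν (G.N ρA) ≤
      ENNReal.ofReal (1 / 4) * G.ν (G.N (sh ρA (-G.C))) := by
    calc ENNReal.ofReal ε * G.ν (G.N ρA)
        ≤ ENNReal.ofReal ε * (ENNReal.ofReal (Real.exp (G.C * (1 + G.C))) *
            G.ν (G.N (sh ρA (-G.C)))) := mul_le_mul_right hdbl _
      _ ≤ _ := by
          rw [← mul_assoc, ← ENNReal.ofReal_mul hε]
          exact mul_le_mul_left (ENNReal.ofReal_le_ofReal hε1) _
  set NA := G.N (sh ρA (-G.C)) with hNA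
  set NB := G.N ρB with hNB
  have hNAm : MeasurableSet NA := G.N_meas _
  have hNBm : MeasurableSet NB := G.N_meas _
  have hcjm : Measurable (G.cj h) := (G.cj_mp h).measurable
  have hmul : Measurable fun q : E × E => q.1 * G.cj h q.2 :=
    measurable_fst.mul (hcjm.comp measurable_snd)
  set W : E × E → V := fun q => Wd G Ψ (g * G.inc (q.1 * G.cj h q.2) * h) with hW
  have hWeq : ∀ n m, W (n, m) = Wd G Ψ (g * G.inc n * h * G.inc m) := by
    intro n m
    simp only [hW]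
    congr 1
    rw [map_mul, G.inc_cj]
    group
  have hWm : ∀ P : Set V, MeasurableSet (W ⁻¹' P) := by
    intro P
    exact hmul (Wd_measI hQ g h P)
  set B1 : Set (E × E) := (NA ×ˢ NB) ∩ W ⁻¹' {v | ω < ‖v - c g‖} with hB1
  set B2 : Set (E × E) := (NA ×ˢ NB) ∩ W ⁻¹' {v | 3 * ω < ‖v - c (g * h)‖} with hB2
  have hB1m : MeasurableSet B1 := (hNAm.prod hNBm).inter (hWm _)
  have hB2m : MeasurableSet B2 := (hNAm.prod hNBm).inter (hWm _)
  have hprod : (G.ν.prod G.ν) (NA ×ˢ NB) = G.ν NA * G.ν NB := Measure.prod_prod _ _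
  -- first estimate
  have h1 : (G.ν.prod G.ν) B1 ≤ ENNReal.ofReal (1 / 4) * (G.ν.prod G.ν) (NA ×ˢ NB) := by
    rw [Measure.prod_apply_symm hB1m, hprod]
    have key : ∀ m, G.ν ((fun n => (n, m)) ⁻¹' B1) ≤
        NB.indicator (fun _ => ENNReal.ofReal (1 / 4) * G.ν NA) m := by
      intro m
      by_cases hm : m ∈ NB
      · rw [indicator_of_mem hm]
        refine le_trans ?_ ((hcA h (Or.inl hl)).trans hle)
        rw [← measure_preimage_mul_right G.ν (G.cj h m)
          {n | n ∈ G.N ρA ∧ ω < ‖Wd G Ψ (g * G.inc n * h) - c g‖}]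
        refine measure_mono ?_
        rintro n ⟨⟨hn, -⟩, hw⟩
        refine ⟨?_, hw⟩
        have := G.N_mul _ hA' n hn _ (hAB m hm)
        rwa [hsh] at this
      · rw [indicator_of_notMem hm]
        have : (fun n => (n, m)) ⁻¹' B1 = ∅ := by
          ext n
          simp only [mem_preimage, hB1, mem_inter_iff, mem_prod, mem_empty_iff_false, iff_false]
          exact fun h => hm h.1.2
        rw [this, measure_empty]
    calc ∫⁻ m, G.ν ((fun n => (n, m)) ⁻¹' B1) ∂G.ν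
        ≤ ∫⁻ m, NB.indicator (fun _ => ENNReal.ofReal (1 / 4) * G.ν NA) m ∂G.ν :=
          lintegral_mono key
      _ = ENNReal.ofReal (1 / 4) * G.ν NA * G.ν NB := lintegral_indicator_const hNBm _
      _ = _ := by rw [mul_assoc]
  -- second estimate
  have h2 : (G.ν.prod G.ν) B2 ≤ ENNReal.ofReal (1 / 4) * (G.ν.prod G.ν) (NA ×ˢ NB) := by
    rw [Measure.prod_apply hB2m, hprod]
    have key : ∀ n, G.ν (Prod.mk n ⁻¹' B2) ≤
        NA.indicator (fun _ => ENNReal.ofReal (1 / 4) * G.ν NB) n := by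
      intro n
      by_cases hn : n ∈ NA
      · rw [indicator_of_mem hn]
        have h3 := IsC.move hr hρ hε hε1 (hA0 n hn) (hc (g * h))
          (by
            have e : g * h * G.inc (G.cj h⁻¹ n) = g * G.inc n * h := by
              rw [G.inc_cj]; group
            have := hc (g * G.inc n * h)
            rwa [← e] at this)
        have e : g * h * G.inc (G.cj h⁻¹ n) = g * G.inc n * h := by
          rw [G.inc_cj]; group
        rw [e] at h3
        have h4 := hcB (g * G.inc n * h) 1 (Or.inl (by rw [G.l_one]; exact hr))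
        refine le_trans (measure_mono ?_) (h4.trans (mul_le_mul_left
          (ENNReal.ofReal_le_ofReal hε4) _))
        rintro m ⟨⟨-, hm⟩, hw⟩
        refine ⟨hm, ?_⟩
        have hw' : 3 * ω < ‖W (n, m) - c (g * h)‖ := hw
        rw [hWeq] at hw'
        rw [mul_one]
        have h5 : ‖Wd G Ψ (g * G.inc n * h * G.inc m) - c (g * h)‖ ≤
            ‖Wd G Ψ (g * G.inc n * h * G.inc m) - c (g * G.inc n * h)‖ +
            ‖c (g * h) - c (g * G.inc n * h)‖ := by
          calc ‖Wd G Ψ (g * G.inc n * h * G.inc m) - c (g * h)‖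
              = ‖(Wd G Ψ (g * G.inc n * h * G.inc m) - c (g * G.inc n * h)) -
                (c (g * h) - c (g * G.inc n * h))‖ := by congr 1; abel
            _ ≤ _ := norm_sub_le _ _
        linarith
      · rw [indicator_of_notMem hn]
        have : Prod.mk n ⁻¹' B2 = ∅ := by
          ext m
          simp only [mem_preimage, hB2, mem_inter_iff, mem_prod, mem_empty_iff_false, iff_false]
          exact fun h => hn h.1.1
        rw [this, measure_empty]
    calc ∫⁻ n, G.ν (Prod.mk n ⁻¹' B2) ∂G.ν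
        ≤ ∫⁻ n, NA.indicator (fun _ => ENNReal.ofReal (1 / 4) * G.ν NB) n ∂G.ν :=
          lintegral_mono key
      _ = ENNReal.ofReal (1 / 4) * G.ν NB * G.ν NA := lintegral_indicator_const hNAm _
      _ = _ := by rw [mul_assoc, mul_comm (G.ν NB)]
  have hpos : 0 < (G.ν.prod G.ν) (NA ×ˢ NB) := by
    rw [hprod]
    exact ENNReal.mul_pos (G.ν_N_pos _ hA').ne' (G.ν_N_pos _ hρB).ne'
  have htop : (G.ν.prod G.ν) (NA ×ˢ NB) < ⊤ := by
    rw [hprod]
    exact ENNReal.mul_lt_top (G.ν_N_top _) (G.ν_N_top _)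
  obtain ⟨⟨n, m⟩, hnm, hn1, hn2⟩ := exists_goodS hpos htop (by norm_num) (by norm_num)
    (by norm_num) h1 h2
  have h3 : ‖W (n, m) - c g‖ ≤ ω := not_lt.1 fun hc => hn1 ⟨hnm, hc⟩
  have h4 : ‖W (n, m) - c (g * h)‖ ≤ 3 * ω := not_lt.1 fun hc => hn2 ⟨hnm, hc⟩
  calc ‖c g - c (g * h)‖ = ‖-(W (n, m) - c g) + (W (n, m) - c (g * h))‖ := by congr 1; abel
    _ ≤ ω + 3 * ω := (norm_add_le _ _).trans (by rw [norm_neg]; exact add_le_add h3 h4)
    _ = 4 * ω := by ring

/-- extents: rays `x p_j - a`, neutral `n` -/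
def win (G : Geo S E V ι L) (x a n : ℝ) : Option ι → ℝ
  | none => n
  | some j => x * G.p j - a

/-- numerical conditions for a scale -/
structure ScS (G : Geo S E V ι L) (κ d lam c8 x : ℝ) : Prop where
  x_pos : 0 < x
  a_le : 2 * (G.C * (c8 * x + 1) + G.C) ≤ κ * x
  a_le' : 2 * (G.C * (c8 * x + 1) + G.C) + G.C ≤ G.c1 * x
  er_le : G.er (c8 * x) + G.C ≤ d * x / lam * (1 - 1 / lam)

theorem exists_ScS (G : Geo S E V ι L) {κ d lam c8 : ℝ} (hκ : 0 < κ) (hd : 0 < d) (hlam : 1 < lam)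
    (hc8 : 0 < c8) (h1 : 4 * G.C * c8 ≤ κ) (h2 : 4 * G.C * c8 ≤ G.c1) :
    ∃ X : ℝ, 0 < X ∧ ∀ x, X ≤ x → ScS G κ d lam c8 x := by
  have hC := G.one_le_C
  have hc1 := G.c1_pos
  have hlam0 : 0 < lam := by linarith
  have hl : 0 < 1 - 1 / lam := by
    rw [sub_pos, div_lt_one hlam0]; exact hlam
  set D : ℝ := d / lam * (1 - 1 / lam) with hD
  have hD0 : 0 < D := by positivity
  obtain ⟨K, hK⟩ := G.er_sub (D / (2 * c8)) (by positivity)
  refine ⟨max 1 (max (8 * G.C / κ) (max (10 * G.C / G.c1) (2 * (|K| + G.C) / D))), by positivity,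
    fun x hx => ?_⟩
  have hx1 : 1 ≤ x := (le_max_left _ _).trans hx
  have hx2 : 8 * G.C / κ ≤ x := (le_max_left _ _).trans ((le_max_right _ _).trans hx)
  have hx3 : 10 * G.C / G.c1 ≤ x :=
    (le_max_left _ _).trans ((le_max_right _ _).trans ((le_max_right _ _).trans hx))
  have hx4 : 2 * (|K| + G.C) / D ≤ x :=
    (le_max_right _ _).trans ((le_max_right _ _).trans ((le_max_right _ _).trans hx))
  rw [div_le_iff₀ hκ] at hx2
  rw [div_le_iff₀ hc1] at hx3
  rw [div_le_iff₀ hD0] at hx4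
  have hx0 : 0 < x := by linarith
  refine ⟨hx0, ?_, ?_, ?_⟩
  · have := mul_le_mul_of_nonneg_right h1 hx0.le
    nlinarith
  · have := mul_le_mul_of_nonneg_right h2 hx0.le
    nlinarith
  · have h3 := hK (c8 * x) (by positivity)
    have h4 : D / (2 * c8) * (c8 * x) = D * x / 2 := by field_simp
    rw [h4] at h3
    have h5 : d * x / lam * (1 - 1 / lam) = D * x := by rw [hD]; ring
    rw [h5]
    have := le_abs_self K
    linarith

/-- one constant for all the windows of scale `x` changes by `O(ω)` under moves of length `≤ c8 x` -/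
theorem const_shift (hQ : QIe G Λ Ψ) {κ d lam c7 c8 x ω ε : ℝ} {c : S → V} (hκ : 0 < κ) (hd : 0 < d)
    (hlam : 1 < lam) (hc8 : 0 < c8) (hc87 : c8 ≤ c7) (hω : 0 ≤ ω) (hε : 0 ≤ ε)
    (hε1 : ε * Real.exp (G.C * (1 + G.C)) ≤ 1 / 4) (hS : ScS G κ d lam c8 x)
    (hc : ∀ (g : S) (ρ : Option ι → ℝ), Win3 G κ d lam x ρ → IsC G Ψ (c7 * x) ω ε ρ g (c g))
    (g h : S) (hl : G.l h ≤ c8 * x) : ‖c g - c (g * h)‖ ≤ 4 * ω := by
  have hC := G.one_le_C
  have hx := hS.x_pos
  have hlam0 : 0 < lam := by linarith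
  have h1l : 0 < 1 - 1 / lam := by rw [sub_pos, div_lt_one hlam0]; exact hlam
  have her := G.er_ge (c8 * x)
  set a : ℝ := G.C * (c8 * x + 1) + G.C with ha
  have ha0 : 0 < a := by positivity
  have hr : 0 ≤ c8 * x := by positivity
  -- neutral extents
  have hn2 : 0 ≤ d * x / lam ^ 2 := by positivity
  have hn1 : d * x / lam ^ 2 + (G.er (c8 * x) + G.C) ≤ d * x / lam := by
    have := hS.er_le
    have e : d * x / lam * (1 - 1 / lam) = d * x / lam - d * x / lam ^ 2 := by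
      field_simp
    linarith
  have hn0 : d * x / lam + G.er (c8 * x) ≤ d * x := by
    have h1 := hS.er_le
    have e : d * x - d * x / lam = d * x * (1 - 1 / lam) := by
      field_simp
    have h2 : d * x / lam * (1 - 1 / lam) ≤ d * x * (1 - 1 / lam) := by
      refine mul_le_mul_of_nonneg_right ?_ h1l.le
      rw [div_le_iff₀ hlam0]
      have : 0 < d * x := by positivity
      nlinarith
    linarith
  have hnA : G.C ≤ d * x / lam := by linarith [G.er_pos (c8 * x)]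
  have hnR : G.C ≤ d * x := by linarith [G.er_pos (c8 * x)]
  -- ray extents
  have hray : ∀ j, 2 * a + G.C ≤ x * G.p j := by
    intro j
    have h1 := hS.a_le'
    have h2 := G.p_lb j
    have h3 := G.δ0_pos
    have : x * (G.c1 + G.δ0) ≤ x * G.p j := mul_le_mul_of_nonneg_left h2 hx.le
    nlinarith
  have hw : ∀ t : ℝ, 0 ≤ t → t ≤ 2 * a → ∀ n, (n = d * x ∨ n = d * x / lam ∨ n = d * x / lam ^ 2) →
      Win3 G κ d lam x (win G x t n) := by
    intro t ht ht2 n hn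
    refine ⟨hn, fun j => ?_⟩
    show |x * G.p j - t - x * G.p j| ≤ κ * x
    rw [show x * G.p j - t - x * G.p j = -t by ring, abs_neg, abs_of_nonneg ht]
    exact ht2.trans hS.a_le
  refine IsC.shift (ρ := win G x 0 (d * x)) (ρA := win G x a (d * x / lam))
    (ρB := win G x (2 * a) (d * x / lam ^ 2)) hQ (by nlinarith : 0 ≤ c7 * x) hω ?_ ?_ ?_ hε hε1
    (hl.trans (mul_le_mul_of_nonneg_right hc87 hx.le)) ?_ ?_ (hc g _ (hw a ha0.le (by linarith) _
      (Or.inr (Or.inl rfl)))) (fun u => hc u _ (hw (2 * a) (by linarith) le_rfl _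
      (Or.inr (Or.inr rfl)))) (fun u => hc u _ (hw 0 le_rfl (by linarith) _ (Or.inl rfl)))
  · rintro (_ | j)
    · exact hnR
    · show G.C ≤ x * G.p j - 0
      linarith [hray j]
  · rintro (_ | j)
    · exact hnA
    · show G.C ≤ x * G.p j - a
      linarith [hray j]
  · rintro (_ | j)
    · exact hn2
    · show 0 ≤ x * G.p j - 2 * a
      linarith [hray j]
  · intro m hm
    refine G.N_mono _ _ ?_ (G.cj_N h (c8 * x) hl _ ?_ m hm)
    · rintro (_ | j)
      · show d * x / lam ^ 2 + G.er (c8 * x) ≤ d * x / lam + -G.C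
        linarith
      · show x * G.p j - 2 * a + G.C * (c8 * x + 1) ≤ x * G.p j - a + -G.C
        rw [ha]; linarith
    · rintro (_ | j)
      · exact hn2
      · show 0 ≤ x * G.p j - 2 * a
        linarith [hray j]
  · intro n hn
    refine G.N_mono _ _ ?_ (G.cj_N h⁻¹ (c8 * x) (by rw [G.l_inv]; exact hl) _ ?_ n hn)
    · rintro (_ | j)
      · show d * x / lam + -G.C + G.er (c8 * x) ≤ d * x + -G.C
        linarith
      · show x * G.p j - a + -G.C + G.C * (c8 * x + 1) ≤ x * G.p j - 0 + -G.C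
        rw [ha]; linarith
    · rintro (_ | j)
      · show 0 ≤ d * x / lam + -G.C
        linarith
      · show 0 ≤ x * G.p j - a + -G.C
        linarith [hray j]

/-- the constant of a location is close to the defect at the location -/
theorem const_base (G : Geo S E V ι L) (Λ d x : ℝ) (hd : 0 ≤ d) (hx : 0 ≤ x) :
    ∃ K : ℝ, 0 ≤ K ∧ ∀ (Ψ : S → S) (r ω ε : ℝ) (g : S) (c : V), QIe G Λ Ψ → 0 ≤ r → 0 ≤ ω → 0 ≤ ε →
      ε ≤ 1 / 4 → IsC G Ψ r ω ε (win G x 0 (d * x)) g c → ‖Wd G Ψ g - c‖ ≤ ω + K := by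
  have hC := G.one_le_C
  obtain ⟨R, hR⟩ : ∃ R : ℝ, ∀ j, win G x 0 (d * x) j ≤ R := by
    refine ⟨d * x + G.C * x, ?_⟩
    rintro (_ | j)
    · show d * x ≤ _
      have : 0 ≤ G.C * x := by positivity
      linarith
    · show x * G.p j - 0 ≤ _
      have h1 := G.p_ub j
      have h2 := G.δ0_pos
      have : 0 ≤ d * x := by positivity
      nlinarith
  obtain ⟨B, hB⟩ := G.N_bdd R
  refine ⟨2 * G.C * |Λ| * (|B| + 1), by positivity, fun Ψ r ω ε g c hQ hr hω hε hε4 h => ?_⟩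
  have hpos : ∀ j, 0 ≤ win G x 0 (d * x) j := by
    rintro (_ | j)
    · show 0 ≤ d * x
      positivity
    · show 0 ≤ x * G.p j - 0
      have h1 := G.p_lb j
      have h2 := G.δ0_pos
      have h3 := G.c1_pos
      have : 0 ≤ G.p j := by linarith
      rw [sub_zero]; positivity
  obtain ⟨n, hn, hA, -⟩ := exists_goodS (A := _) (B := ∅) (b := 0) (G.ν_N_pos _ hpos) (G.ν_N_top _)
    hε le_rfl (by linarith) (h 1 (Or.inl (by rw [G.l_one]; exact hr))) (by simp)
  have h1 : ‖Wd G Ψ (g * G.inc n * 1) - c‖ ≤ ω := not_lt.1 fun hc => hA ⟨hn, hc⟩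
  rw [mul_one] at h1
  have h2 := Wd_lip hQ g (G.inc n)
  have h3 : G.l (G.inc n) ≤ |B| := (hB _ hR n hn).trans (le_abs_self B)
  have h4 : 2 * G.C * Λ * (G.l (G.inc n) + 1) ≤ 2 * G.C * |Λ| * (|B| + 1) := by
    rw [abs_of_nonneg hQ.nonneg]
    have := hQ.nonneg
    exact mul_le_mul_of_nonneg_left (by linarith) (by positivity)
  calc ‖Wd G Ψ g - c‖ = ‖-(Wd G Ψ (g * G.inc n) - Wd G Ψ g) + (Wd G Ψ (g * G.inc n) - c)‖ := by
        congr 1; abel
    _ ≤ ‖-(Wd G Ψ (g * G.inc n) - Wd G Ψ g)‖ + ‖Wd G Ψ (g * G.inc n) - c‖ := norm_add_le _ _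
    _ ≤ ω + 2 * G.C * |Λ| * (|B| + 1) := by rw [norm_neg]; linarith

/-- **SUM** -/
theorem es_of_ch {𝓕 : Set (S → S)} (hΛ : ∀ Ψ ∈ 𝓕, QIe G Λ Ψ) (h : CH G 𝓕) : ES G 𝓕 := by
  obtain ⟨c7, κ, lam, hc7, hκ, hlam, hlam2, hlamκ, H⟩ := h
  have hC := G.one_le_C
  have hc1 := G.c1_pos
  have hlam0 : 0 < lam := by linarith
  have hlam1 : 0 < lam - 1 := by linarith
  intro η hη
  obtain ⟨c8, hc8, hc87, h4, h5⟩ : ∃ c8 : ℝ, 0 < c8 ∧ c8 ≤ c7 ∧ 4 * G.C * c8 ≤ κ ∧
      4 * G.C * c8 ≤ G.c1 := by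
    refine ⟨min c7 (min (κ / (4 * G.C)) (G.c1 / (4 * G.C))), by positivity, min_le_left _ _, ?_, ?_⟩
    · calc 4 * G.C * min c7 (min (κ / (4 * G.C)) (G.c1 / (4 * G.C)))
          ≤ 4 * G.C * (κ / (4 * G.C)) := mul_le_mul_of_nonneg_left
            ((min_le_right _ _).trans (min_le_left _ _)) (by positivity)
        _ = κ := by field_simp
    · calc 4 * G.C * min c7 (min (κ / (4 * G.C)) (G.c1 / (4 * G.C)))
          ≤ 4 * G.C * (G.c1 / (4 * G.C)) := mul_le_mul_of_nonneg_left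
            ((min_le_right _ _).trans (min_le_right _ _)) (by positivity)
        _ = G.c1 := by field_simp
  -- the error
  set M : ℝ := 6 / (lam - 1) + 4 with hM
  have hM0 : 0 < M := by positivity
  obtain ⟨η1, hη1, hη2, hη3⟩ : ∃ η1 : ℝ, 0 < η1 ∧ M * η1 * (2 / c8) ≤ η ∧
      η1 * Real.exp (G.C * (1 + G.C)) ≤ 1 / 4 := by
    refine ⟨min (η * c8 / (2 * M)) (1 / 4 / Real.exp (G.C * (1 + G.C))), by positivity, ?_, ?_⟩
    · calc M * min (η * c8 / (2 * M)) (1 / 4 / Real.exp (G.C * (1 + G.C))) * (2 / c8)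
          ≤ M * (η * c8 / (2 * M)) * (2 / c8) := by
            refine mul_le_mul_of_nonneg_right (mul_le_mul_of_nonneg_left (min_le_left _ _) hM0.le)
              (by positivity)
        _ = η := by field_simp
    · calc min (η * c8 / (2 * M)) (1 / 4 / Real.exp (G.C * (1 + G.C))) * Real.exp (G.C * (1 + G.C))
          ≤ 1 / 4 / Real.exp (G.C * (1 + G.C)) * Real.exp (G.C * (1 + G.C)) :=
            mul_le_mul_of_nonneg_right (min_le_right _ _) (Real.exp_pos _).le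
        _ = 1 / 4 := div_mul_cancel₀ _ (Real.exp_pos _).ne'
  have hη4 : η1 ≤ 1 / 4 := by
    have : 1 ≤ Real.exp (G.C * (1 + G.C)) := Real.one_le_exp (by nlinarith)
    nlinarith
  obtain ⟨d, x0, hd, H⟩ := H η1 hη1
  obtain ⟨X', hX'0, hX'⟩ := exists_ScS G hκ hd hlam hc8 h4 h5
  set X : ℝ := max x0 X' with hX
  have hXX' : X' ≤ X := le_max_right _ _
  have hXx0 : x0 ≤ X := le_max_left _ _
  have hX0 : 0 < X := by linarith
  obtain ⟨K0, hK0, hbase⟩ := const_base G Λ d X hd.le hX0.le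
  refine ⟨2 * (η1 * X + K0) + M * η1 * X, fun Ψ hΨ g h => ?_⟩
  have hQ := hΛ Ψ hΨ
  -- scales
  set xs : ℕ → ℝ := fun j => X * lam ^ j with hxs
  have hxs0 : ∀ j, X ≤ xs j := fun j => by
    have : 1 ≤ lam ^ j := one_le_pow₀ hlam.le
    simp only [hxs]; nlinarith
  have hxss : ∀ j, xs (j + 1) = lam * xs j := fun j => by simp only [hxs]; ring
  have hxpos : ∀ j, 0 < xs j := fun j => hX0.trans_le (hxs0 j)
  choose c hc using fun j => H Ψ hΨ (xs j) (hXx0.trans (hxs0 j))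
  -- one step
  have hstep : ∀ j g, ‖c (j + 1) g - c j g‖ ≤ 3 * η1 * xs j := by
    intro j g
    have hw0 : Win3 G κ d lam (xs j) (win G (xs j) 0 (d * xs j)) := by
      refine ⟨Or.inl rfl, fun i => ?_⟩
      show |xs j * G.p i - 0 - xs j * G.p i| ≤ κ * xs j
      rw [sub_zero, sub_self, abs_zero]
      exact (mul_pos hκ (hxpos j)).le
    have hw1 : Win3 G κ d lam (xs (j + 1)) (win G (xs j) 0 (d * xs j)) := by
      refine ⟨Or.inr (Or.inl ?_), fun i => ?_⟩
      · show d * xs j = d * xs (j + 1) / lam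
        rw [hxss]; field_simp
      · show |xs j * G.p i - 0 - xs (j + 1) * G.p i| ≤ κ * xs (j + 1)
        rw [hxss, sub_zero]
        have e : xs j * G.p i - lam * xs j * G.p i = -((lam - 1) * xs j * G.p i) := by ring
        have hp0 : 0 ≤ G.p i := by
          have := G.p_lb i
          have := G.δ0_pos
          linarith
        have hpC : G.p i ≤ G.C := by
          have := G.p_ub i
          have := G.δ0_pos
          linarith
        have := hxpos j
        rw [e, abs_neg, abs_of_nonneg (by positivity)]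
        calc (lam - 1) * xs j * G.p i ≤ (lam - 1) * xs j * G.C := by gcongr
          _ = (lam - 1) * G.C * xs j := by ring
          _ ≤ κ * xs j := by gcongr
          _ ≤ κ * (lam * xs j) := by
              refine mul_le_mul_of_nonneg_left ?_ hκ.le
              nlinarith
    have hpos : ∀ i, 0 ≤ win G (xs j) 0 (d * xs j) i := by
      have := hxpos j
      rintro (_ | i)
      · show 0 ≤ d * xs j
        positivity
      · show 0 ≤ xs j * G.p i - 0
        have hp0 : 0 ≤ G.p i := by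
          have := G.p_lb i
          have := G.δ0_pos
          linarith
        rw [sub_zero]; positivity
    have h1 := IsC.uniq (by have := hxpos (j + 1); positivity) (by have := hxpos j; positivity) hpos
      hη1.le hη1.le (by linarith) (hc (j + 1) g _ hw1) (hc j g _ hw0)
    rw [hxss] at h1
    have := hxpos j
    nlinarith [mul_pos hη1 this]
  have hsum : ∀ j g, ‖c j g - c 0 g‖ ≤ 3 * η1 / (lam - 1) * (xs j - X) := by
    intro j g
    induction j with
    | zero => simp [hxs]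
    | succ j ih =>
      have h1 := hstep j g
      have h2 : ‖c (j + 1) g - c 0 g‖ ≤ ‖c (j + 1) g - c j g‖ + ‖c j g - c 0 g‖ := by
        calc ‖c (j + 1) g - c 0 g‖ = ‖(c (j + 1) g - c j g) + (c j g - c 0 g)‖ := by congr 1; abel
          _ ≤ _ := norm_add_le _ _
      have h3 : 3 * η1 / (lam - 1) * (xs (j + 1) - X) =
          3 * η1 * xs j + 3 * η1 / (lam - 1) * (xs j - X) := by
        rw [hxss]; field_simp; ring
      linarith
  -- choice of the scale
  obtain ⟨j, hj1, hj2⟩ : ∃ j, G.l h ≤ c8 * xs j ∧ xs j ≤ X + 2 / c8 * G.l h := by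
    have hex : ∃ j, G.l h ≤ c8 * xs j := by
      obtain ⟨j, hj⟩ := pow_unbounded_of_one_lt (G.l h / (c8 * X)) hlam
      refine ⟨j, ?_⟩
      rw [div_lt_iff₀ (by positivity)] at hj
      simp only [hxs]
      linarith
    classical
    refine ⟨Nat.find hex, Nat.find_spec hex, ?_⟩
    rcases Nat.eq_zero_or_pos (Nat.find hex) with h0 | h0
    · rw [h0]
      have := G.l_nonneg h
      simp only [hxs, pow_zero, mul_one]
      have : 0 ≤ 2 / c8 * G.l h := by positivity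
      linarith
    · obtain ⟨i, hi⟩ : ∃ i, Nat.find hex = i + 1 := ⟨Nat.find hex - 1, by omega⟩
      have h6 := Nat.find_min hex (m := i) (by omega)
      rw [hi, hxss]
      have h7 : c8 * xs i < G.l h := not_le.1 h6
      have h8 : xs i ≤ G.l h / c8 := by
        rw [le_div_iff₀ hc8]; linarith
      have h9 : 2 / c8 * G.l h = 2 * (G.l h / c8) := by ring
      rw [h9]
      have := hxpos i
      nlinarith
  -- assembly
  have hε1 : η1 * Real.exp (G.C * (1 + G.C)) ≤ 1 / 4 := hη3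
  have hsh := const_shift hQ hκ hd hlam hc8 hc87 (by have := hxpos j; positivity : 0 ≤ η1 * xs j)
    hη1.le hε1 (hX' (xs j) (hXX'.trans (hxs0 j))) (hc j) g h hj1
  have hb : ∀ u, ‖Wd G Ψ u - c 0 u‖ ≤ η1 * X + K0 := by
    intro u
    have hw0 : Win3 G κ d lam (xs 0) (win G X 0 (d * X)) := by
      have e : xs 0 = X := by simp [hxs]
      rw [e]
      refine ⟨Or.inl rfl, fun i => ?_⟩
      show |X * G.p i - 0 - X * G.p i| ≤ κ * X
      rw [sub_zero, sub_self, abs_zero]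
      positivity
    have h1 := hc 0 u _ hw0
    have e : xs 0 = X := by simp [hxs]
    rw [e] at h1
    exact hbase Ψ _ _ _ u _ hQ (by positivity) (by positivity) hη1.le hη4 h1
  have h1 := hb g
  have h2 := hb (g * h)
  have h3 := hsum j g
  have h4' := hsum j (g * h)
  have h6 : 3 * η1 / (lam - 1) * (xs j - X) ≤ 3 * η1 / (lam - 1) * xs j :=
    mul_le_mul_of_nonneg_left (by linarith) (by positivity)
  have h7 : ‖Wd G Ψ (g * h) - Wd G Ψ g‖ ≤ 2 * (η1 * X + K0) + M * η1 * xs j := by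
    calc ‖Wd G Ψ (g * h) - Wd G Ψ g‖
        = ‖(Wd G Ψ (g * h) - c 0 (g * h)) + (-(c j (g * h) - c 0 (g * h)) +
          (-(c j g - c j (g * h)) + ((c j g - c 0 g) + -(Wd G Ψ g - c 0 g))))‖ := by
          congr 1; abel
      _ ≤ ‖Wd G Ψ (g * h) - c 0 (g * h)‖ + (‖c j (g * h) - c 0 (g * h)‖ +
          (‖c j g - c j (g * h)‖ + (‖c j g - c 0 g‖ + ‖Wd G Ψ g - c 0 g‖))) := by
          refine (norm_add_le _ _).trans (add_le_add le_rfl ?_)
          refine (norm_add_le _ _).trans (add_le_add (by rw [norm_neg]) ?_)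
          refine (norm_add_le _ _).trans (add_le_add (by rw [norm_neg]) ?_)
          refine (norm_add_le _ _).trans (add_le_add le_rfl (by rw [norm_neg]))
      _ ≤ (η1 * X + K0) + (3 * η1 / (lam - 1) * xs j + (4 * (η1 * xs j) +
          (3 * η1 / (lam - 1) * xs j + (η1 * X + K0)))) := by
          refine add_le_add h2 (add_le_add (h4'.trans h6) (add_le_add hsh
            (add_le_add (h3.trans h6) h1)))
      _ = _ := by rw [hM]; field_simp; ring
  have h8 : M * η1 * xs j ≤ M * η1 * X + η * G.l h := by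
    calc M * η1 * xs j ≤ M * η1 * (X + 2 / c8 * G.l h) :=
          mul_le_mul_of_nonneg_left hj2 (by positivity)
      _ = M * η1 * X + M * η1 * (2 / c8) * G.l h := by ring
      _ ≤ _ := by
          have := mul_le_mul_of_nonneg_right hη2 (G.l_nonneg h)
          linarith
  linarith

end Vale.P188.H532
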