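import Vale.Agent.P188.H532.Stmt
import Vale.Agent.P188.H893.Chain
import Vale.Agent.P188.H893.Sum

/-!
# P188, route B: T_o implies CHAIN (helper893)
-/

set_option linter.all false

namespace Vale.P188.H532

open MeasureTheory Set
open scoped ENNReal

variable {S E V ι L : Type} [Group S] [Group E] [MeasurableSpace E] [NormedAddCommGroup V]
    [NormedSpace ℝ V] [Fintype ι] [DecidableEq ι] [Fintype L]

/-- `c` is the constant of the window `ρ` at `y` up to `τ`, in a measurable form -/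
def NearC (G : Geo S E V ι L) (Ψ : S → S) (ρ : Option ι → ℝ) (τ : ℝ) (c : V) (y : S) : Prop :=
  G.ν {n | n ∈ G.N ρ ∧ τ < ‖Wd G Ψ (y * G.inc n) - c‖} ≤ ENNReal.ofReal (1 / 4) * G.ν (G.N ρ)

variable {G : Geo S E V ι L} {Λ : ℝ} {Ψ : S → S}

theorem NearC_meas (hQ : QIe G Λ Ψ) (ρ : Option ι → ℝ) (τ : ℝ) (c : V) (g : S) :
    MeasurableSet {e : E | NearC G Ψ ρ τ c (g * G.inc e)} := by
  haveI := G.ν_mm
  haveI := G.ν_sf
  set A : Set (E × E) := {q | q.2 ∈ G.N ρ ∧ τ < ‖Wd G Ψ (g * G.inc (q.1 * q.2) * 1) - c‖} with hA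
  have hAm : MeasurableSet A := by
    refine (measurable_snd (G.N_meas ρ)).inter ?_
    have h1 : MeasurableSet {e : E | Wd G Ψ (g * G.inc e * 1) ∈ {v : V | τ < ‖v - c‖}} :=
      Wd_measI hQ g 1 _
    exact (measurable_fst.mul measurable_snd) h1
  have h2 : Measurable fun e : E => G.ν (Prod.mk e ⁻¹' A) := measurable_measure_prodMk_left hAm
  have h3 : {e : E | NearC G Ψ ρ τ c (g * G.inc e)} =
      {e | G.ν (Prod.mk e ⁻¹' A) ≤ ENNReal.ofReal (1 / 4) * G.ν (G.N ρ)} := by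
    ext e
    show G.ν _ ≤ _ ↔ G.ν _ ≤ _
    have : {n | n ∈ G.N ρ ∧ τ < ‖Wd G Ψ (g * G.inc e * G.inc n) - c‖} = Prod.mk e ⁻¹' A := by
      ext n
      show _ ∧ _ ↔ _ ∧ _
      simp only [map_mul, mul_one, mul_assoc]
    rw [this]
  rw [h3]
  exact measurableSet_le h2 measurable_const

theorem IsC.baseI {r ω ε : ℝ} {ρ : Option ι → ℝ} {g : S} {c : V} (h : IsC G Ψ r ω ε ρ g c)
    (hr : 0 ≤ r) : G.ν {n | n ∈ G.N ρ ∧ ω < ‖Wd G Ψ (g * G.inc n) - c‖} ≤
      ENNReal.ofReal ε * G.ν (G.N ρ) := by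
  have := h 1 (Or.inl (by rw [G.l_one]; exact hr))
  simpa only [mul_one] using this

theorem IsC.nearC {r ω ε τ : ℝ} {ρ : Option ι → ℝ} {g : S} {c c' : V} (h : IsC G Ψ r ω ε ρ g c')
    (hr : 0 ≤ r) (hε : ε ≤ 1 / 4) (hc : ‖c' - c‖ + ω ≤ τ) : NearC G Ψ ρ τ c g := by
  refine (measure_mono ?_).trans ((h.baseI hr).trans
    (mul_le_mul_left (ENNReal.ofReal_le_ofReal hε) _))
  rintro n ⟨hn, h1⟩
  refine ⟨hn, ?_⟩
  have h2 : ‖Wd G Ψ (g * G.inc n) - c‖ ≤ ‖Wd G Ψ (g * G.inc n) - c'‖ + ‖c' - c‖ := by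
    calc ‖Wd G Ψ (g * G.inc n) - c‖ = ‖(Wd G Ψ (g * G.inc n) - c') + (c' - c)‖ := by congr 1; abel
      _ ≤ _ := norm_add_le _ _
  linarith

theorem NearC.dist {r ω ε τ : ℝ} {ρ : Option ι → ℝ} {g : S} {c c' : V} (h : NearC G Ψ ρ τ c g)
    (h' : IsC G Ψ r ω ε ρ g c') (hr : 0 ≤ r) (hρ : ∀ j, 0 ≤ ρ j) (hε0 : 0 ≤ ε) (hε : ε ≤ 1 / 4) :
    ‖c' - c‖ ≤ τ + ω := by
  obtain ⟨n, hn, h1, h2⟩ := exists_goodS (G.ν_N_pos ρ hρ) (G.ν_N_top ρ) (by norm_num) hε0
    (by linarith) h (h'.baseI hr)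
  have h3 : ‖Wd G Ψ (g * G.inc n) - c‖ ≤ τ := not_lt.1 fun hc => h1 ⟨hn, hc⟩
  have h4 : ‖Wd G Ψ (g * G.inc n) - c'‖ ≤ ω := not_lt.1 fun hc => h2 ⟨hn, hc⟩
  calc ‖c' - c‖ = ‖(Wd G Ψ (g * G.inc n) - c) - (Wd G Ψ (g * G.inc n) - c')‖ := by congr 1; abel
    _ ≤ τ + ω := (norm_sub_le _ _).trans (add_le_add h3 h4)

/-! ### the windows -/

/-- extend `o` to `ρ' o` and shrink the other rays by `K (l + 1)` -/
def extW (K : ℝ) (ρ' P : Option ι → ℝ) (o : Option ι) : Option ι → ℝ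
  | none => if o = none then ρ' none else P none
  | some j => if o = some j then ρ' (some j) else P (some j) - K * (ρ' o - P o + 1)

/-- the sequence of windows -/
def seqW (K : ℝ) (ρ ρ' : Option ι → ℝ) {m : ℕ} (o : Fin m → Option ι) : ℕ → Option ι → ℝ
  | 0 => ρ
  | t + 1 => if h : t < m then extW K ρ' (seqW K ρ ρ' o t) (o ⟨t, h⟩) else seqW K ρ ρ' o t

theorem extW_self {K : ℝ} {ρ' P : Option ι → ℝ} (o : Option ι) : extW K ρ' P o o = ρ' o := by
  rcases o with _ | j <;> simp [extW]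

theorem extW_le {K : ℝ} (hK : 0 ≤ K) {ρ' P : Option ι → ℝ} (hP : ∀ j, P j ≤ ρ' j) (o : Option ι)
    (j : Option ι) : extW K ρ' P o j ≤ ρ' j := by
  have h0 : 0 ≤ K * (ρ' o - P o + 1) := mul_nonneg hK (by linarith [hP o])
  rcases j with _ | j
  · simp only [extW]
    split_ifs
    · exact le_rfl
    · exact hP none
  · simp only [extW]
    split_ifs
    · exact le_rfl
    · linarith [hP (some j)]

theorem extW_step {K : ℝ} {ρ' P : Option ι → ℝ} (hP : ∀ j, P j ≤ ρ' j) (o : Option ι) :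
    Step K o P (extW K ρ' P o) where
  self := by rw [extW_self]; exact hP o
  hnone h := by simp [extW, h]
  le j h := by
    rw [extW_self]
    simp only [extW, if_neg h]
    linarith

theorem seqW_le {K : ℝ} (hK : 0 ≤ K) {ρ ρ' : Option ι → ℝ} (h : ∀ j, ρ j ≤ ρ' j) {m : ℕ}
    (o : Fin m → Option ι) (q : ℕ) : ∀ j, seqW K ρ ρ' o q j ≤ ρ' j := by
  induction q with
  | zero => exact h
  | succ q ih =>
    intro j
    rw [seqW]
    split_ifs with hq
    · exact extW_le hK ih _ j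
    · exact ih j

theorem seqW_none {K : ℝ} (hK : 0 ≤ K) {ρ ρ' : Option ι → ℝ} (h : ∀ j, ρ j ≤ ρ' j) {m : ℕ}
    (o : Fin m → Option ι) (q : ℕ) : ρ none ≤ seqW K ρ ρ' o q none := by
  induction q with
  | zero => exact le_rfl
  | succ q ih =>
    rw [seqW]
    split_ifs with hq
    · simp only [extW]
      split_ifs
      · exact h none
      · exact ih
    · exact ih

/-- the deficits grow geometrically -/
theorem seqW_ge {K D : ℝ} (hK : 0 ≤ K) {ρ ρ' : Option ι → ℝ} (h : ∀ j, ρ j ≤ ρ' j)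
    (hD : ∀ j, ρ' j - ρ j ≤ D) {m : ℕ} (o : Fin m → Option ι) (q : ℕ) :
    ∀ j, ρ' j - seqW K ρ ρ' o q j + 1 ≤ (1 + K) ^ q * (D + 1) := by
  have hD0 : 0 ≤ D := by linarith [h none, hD none]
  induction q with
  | zero => intro j; rw [pow_zero, one_mul, seqW]; linarith [hD j]
  | succ q ih =>
    intro j
    have hmono : (1 + K) ^ q * (D + 1) ≤ (1 + K) ^ (q + 1) * (D + 1) := by
      rw [pow_succ]
      have : 0 ≤ (1 + K) ^ q * (D + 1) := by positivity
      nlinarith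
    rw [seqW]
    split_ifs with hq
    · have h1 := ih (o ⟨q, hq⟩)
      have hle := seqW_le hK h o q
      rcases j with _ | j
      · simp only [extW]
        split_ifs
        · rw [sub_self]
          have := one_le_pow₀ (n := q + 1) (by linarith : 1 ≤ 1 + K)
          nlinarith
        · exact (ih none).trans hmono
      · simp only [extW]
        split_ifs
        · rw [sub_self]
          have := one_le_pow₀ (n := q + 1) (by linarith : 1 ≤ 1 + K)
          nlinarith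
        · have h2 := ih (some j)
          have h3 : K * (ρ' (o ⟨q, hq⟩) - seqW K ρ ρ' o q (o ⟨q, hq⟩) + 1) ≤
              K * ((1 + K) ^ q * (D + 1)) := mul_le_mul_of_nonneg_left h1 hK
          calc ρ' (some j) - (seqW K ρ ρ' o q (some j) -
                K * (ρ' (o ⟨q, hq⟩) - seqW K ρ ρ' o q (o ⟨q, hq⟩) + 1)) + 1
              = (ρ' (some j) - seqW K ρ ρ' o q (some j) + 1) +
                K * (ρ' (o ⟨q, hq⟩) - seqW K ρ ρ' o q (o ⟨q, hq⟩) + 1) := by ring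
            _ ≤ (1 + K) ^ q * (D + 1) + K * ((1 + K) ^ q * (D + 1)) := add_le_add h2 h3
            _ = (1 + K) ^ (q + 1) * (D + 1) := by ring
    · exact (ih j).trans hmono

theorem Sc.w_ge {K x ω r0 : ℝ} (h : Sc G K x ω r0) : K ≤ x := by
  have h1 := h.ω_ge
  have h2 := h.x_ge
  have h3 := h.one_le
  nlinarith

theorem Sc.r0_le_x {K x ω r0 : ℝ} (h : Sc G K x ω r0) : r0 ≤ x := by
  have h1 := h.r0_le
  have h2 := h.x_ge
  have h3 := h.one_le
  have h4 := h.r0_nonneg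
  have h5 := h.ω_ge
  nlinarith

/-- the windows of the sequence are admissible -/
theorem seqW_win {K δ δ2 x r0 : ℝ} (hK : 0 ≤ K) (hδ2 : 0 < δ2) (hx : 0 < x) (hr0 : 0 ≤ r0)
    (hr0x : r0 ≤ x) {m : ℕ} (hδ : δ2 + 2 * δ2 * (1 + K) ^ m ≤ δ / 2)
    (hx1 : (1 + K) ^ m ≤ δ / 2 * x) {ρ ρ' : Option ι → ℝ} (h : ∀ j, ρ j ≤ ρ' j)
    (hρ : Win G δ2 x r0 ρ) (hρ' : Win G δ2 x r0 ρ') (o : Fin m → Option ι) {q : ℕ} (hq : q ≤ m) :
    Win G δ x r0 (seqW K ρ ρ' o q) := by
  have hpow : 1 ≤ (1 + K) ^ m := one_le_pow₀ (by linarith)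
  have hδ' : δ2 ≤ δ := by nlinarith
  have hD : ∀ j, ρ' j - ρ j ≤ 2 * δ2 * x := by
    rintro (_ | j)
    · have h1 := hρ.lo
      have h2 := hρ'.hi
      nlinarith
    · have h1 := (abs_le.1 (hρ.ray j)).1
      have h2 := (abs_le.1 (hρ'.ray j)).2
      linarith
  have hge := seqW_ge hK h hD o q
  have hle := seqW_le hK h o q
  have hqm : (1 + K) ^ q ≤ (1 + K) ^ m := pow_le_pow_right₀ (by linarith) hq
  refine ⟨fun j => ?_, (hρ.lo).trans (seqW_none hK h o q), (hle none).trans (hρ'.hi.trans ?_)⟩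
  · have h1 := hge (some j)
    have h2 := hle (some j)
    have h3 := abs_le.1 (hρ'.ray j)
    have h4 : (1 + K) ^ q * (2 * δ2 * x + 1) ≤ (1 + K) ^ m * (2 * δ2 * x + 1) :=
      mul_le_mul_of_nonneg_right hqm (by positivity)
    have h5 : (1 + K) ^ m * (2 * δ2 * x + 1) + δ2 * x ≤ δ * x := by
      have h6 := mul_le_mul_of_nonneg_right hδ hx.le
      nlinarith
    rw [abs_le]
    constructor
    · linarith [h3.1]
    · have : δ2 * x ≤ δ * x := mul_le_mul_of_nonneg_right hδ' hx.le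
      linarith [h3.2]
  · exact mul_le_mul_of_nonneg_right (by linarith) hr0

/-- **CHAIN from T_o** -/
theorem chain_of_to (G : Geo S E V ι L) (Λ : ℝ) (hT : TO G Λ) : CHAIN G Λ := by
  classical
  obtain ⟨m, o, C', εA, hC', hεA, hchain⟩ := chain_abs G
  obtain ⟨K, δ1, hK, hδ1, HT⟩ := hT
  have hC := G.one_le_C
  have hδ0 := G.δ0_pos
  have hc1 := G.c1_pos
  set δ : ℝ := min δ1 (G.δ0 / (4 * G.C)) with hδdef
  have hδ : 0 < δ := by positivity
  have hδδ1 : δ ≤ δ1 := min_le_left _ _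
  have hδW : δ ≤ G.δ0 / (4 * G.C) := min_le_right _ _
  have hδδ0 : δ ≤ G.δ0 := by
    refine hδW.trans ?_
    rw [div_le_iff₀ (by positivity)]
    nlinarith
  set B : ℝ := (1 + K) ^ m with hB
  have hB1 : 1 ≤ B := one_le_pow₀ (by linarith)
  set δ2 : ℝ := δ / (8 * B) with hδ2def
  have hδ2 : 0 < δ2 := by positivity
  have hδ2B : δ2 * B = δ / 8 := by rw [hδ2def]; field_simp
  have hδ2le : δ2 ≤ δ / 8 := by nlinarith
  set K' : ℝ := K + C' + C' / G.c1 + (2 + (m + 1) * (K + 2)) + 2 * B / δ with hK'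
  have hm0 : (0 : ℝ) ≤ m := Nat.cast_nonneg _
  have hK0 : 0 ≤ K := by linarith
  have hq1 : 0 ≤ C' / G.c1 := by positivity
  have hq2 : 0 ≤ 2 * B / δ := by positivity
  have hq3 : 0 ≤ (m + 1) * (K + 2) := by positivity
  have hK'K : K ≤ K' := by rw [hK']; linarith
  have hK'1 : 1 ≤ K' := hK.trans hK'K
  refine ⟨K', δ2, hK'1, hδ2, fun η hη => ?_⟩
  obtain ⟨ε0, hε0, HT⟩ := HT η εA hη hεA
  refine ⟨min ε0 (min εA (1 / 4)), by positivity, ?_⟩
  set ε : ℝ := min ε0 (min εA (1 / 4)) with hε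
  have hεp : 0 < ε := by positivity
  have hεε0 : ε ≤ ε0 := min_le_left _ _
  have hεεA : ε ≤ εA := (min_le_right _ _).trans (min_le_left _ _)
  have hε4 : ε ≤ 1 / 4 := (min_le_right _ _).trans (min_le_right _ _)
  intro Ψ x r0 hQ hS' hr0 hF ρ ρ' Y c c' hρρ' hρ hρ' hc hc'
  have hS : Sc G K x (η * x) r0 := hS'.mono hK hK'K
  have hxK' : K' ≤ x := hS'.w_ge
  have hx : 0 < x := by linarith
  have hr0x := hS'.r0_le_x
  have hr00 : 0 ≤ r0 := hS'.r0_nonneg
  have hω : 0 < η * x := by positivity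
  have hx1 : (1 + K) ^ m ≤ δ / 2 * x := by
    have : 2 * B / δ ≤ x := by linarith
    rw [div_le_iff₀ hδ] at this
    linarith
  have hδ2' : δ2 + 2 * δ2 * (1 + K) ^ m ≤ δ / 2 := by
    have : 2 * δ2 * (1 + K) ^ m = 2 * (δ2 * B) := by rw [hB]; ring
    rw [this, hδ2B]; linarith
  set W : ℕ → Option ι → ℝ := seqW K ρ ρ' o with hW
  have hwin : ∀ q ≤ m, Win G δ x r0 (W q) := fun q hq =>
    seqW_win hK0 hδ2 hx hr00 hr0x hδ2' hx1 hρρ' hρ hρ' o hq
  have hWle : ∀ q j, W q j ≤ ρ' j := fun q => seqW_le hK0 hρρ' o q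
  have hext : ∀ q ≤ m, ∀ j, C' ≤ W q j := by
    intro q hq j
    have h1 := hwin q hq
    rcases j with _ | j
    · have := h1.lo
      linarith
    · have h2 := (abs_le.1 (h1.ray j)).1
      have h3 := G.p_lb j
      have h4 : x * (G.c1 + G.δ0) ≤ x * G.p j := mul_le_mul_of_nonneg_left h3 hx.le
      have h5 : δ * x ≤ G.δ0 * x := mul_le_mul_of_nonneg_right hδδ0 hx.le
      have h6 : C' / G.c1 ≤ x := by linarith
      rw [div_le_iff₀ hc1] at h6
      nlinarith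
  have hpos : ∀ q ≤ m, ∀ j, 0 ≤ W q j := fun q hq j => hC'.trans (hext q hq j)
  -- flatness of the windows
  have hFl : ∀ q ≤ m, ∀ g, ∃ c, IsC G Ψ 0 (η * x) ε (W q) g c := fun q hq g =>
    (hF (W q) ((hwin q hq).mono hx.le hr00 hδW) g).1
  have hF0 : FlatW G Ψ 0 x r0 (η * x) ε0 := hF.mono le_rfl le_rfl hεε0
  -- good sets
  set τ : ℕ → ℝ := fun q => η * x + q * ((K + 2) * (η * x)) with hτ
  set Gd : ℕ → Set E := fun q =>
    if q ≤ m then {e | NearC G Ψ (W q) (τ q) c (Y * G.inc e)}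
    else {e | ‖Wd G Ψ (Y * G.inc e) - c‖ ≤ τ (m + 1)} with hGd
  have hGdm : ∀ q, MeasurableSet (Gd q) := by
    intro q
    simp only [hGd]
    split_ifs
    · exact NearC_meas hQ _ _ _ _
    · have := Wd_measI hQ Y 1 {v : V | ‖v - c‖ ≤ τ (m + 1)}
      simp only [mul_one] at this
      exact this
  set Be : Set E := {n | n ∈ G.N ρ' ∧ η * x < ‖Wd G Ψ (Y * G.inc n) - c'‖} with hBe
  have hBem : MeasurableSet Be := by
    refine (G.N_meas ρ').inter ?_
    have := Wd_measI hQ Y 1 {v : V | η * x < ‖v - c'‖}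
    simp only [mul_one] at this
    exact this
  suffices hconc : ∃ e ∈ G.N ρ', e ∉ Be ∧ e ∈ Gd (m + 1) by
    obtain ⟨e, he, heB, heG⟩ := hconc
    have h1 : ‖Wd G Ψ (Y * G.inc e) - c'‖ ≤ η * x := not_lt.1 fun hlt => heB ⟨he, hlt⟩
    have h2 : ‖Wd G Ψ (Y * G.inc e) - c‖ ≤ τ (m + 1) := by
      have : Gd (m + 1) = {e | ‖Wd G Ψ (Y * G.inc e) - c‖ ≤ τ (m + 1)} := by
        simp only [hGd]
        rw [if_neg (by omega)]
      rw [this] at heG
      exact heG
    calc ‖c' - c‖ = ‖(Wd G Ψ (Y * G.inc e) - c) - (Wd G Ψ (Y * G.inc e) - c')‖ := by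
          congr 1; abel
      _ ≤ τ (m + 1) + η * x := (norm_sub_le _ _).trans (add_le_add h2 h1)
      _ = (2 + (m + 1) * (K + 2)) * (η * x) := by simp only [hτ]; push_cast; ring
      _ ≤ K' * (η * x) := by
          refine mul_le_mul_of_nonneg_right ?_ hω.le
          rw [hK']; linarith
  refine hchain W ρ' Gd Be hGdm hBem (fun q hq j => ⟨hext q hq j, hWle q j⟩) ?_ ?_ ?_ ?_
  · -- windows
    intro t
    have : W ((t : ℕ) + 1) = extW K ρ' (W t) (o t) := by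
      simp only [hW, seqW]
      rw [dif_pos t.2]
    rw [this]
    exact extW_self _
  · -- start
    have : Gd 0 = {e | NearC G Ψ (W 0) (τ 0) c (Y * G.inc e)} := by
      simp only [hGd]
      rw [if_pos (Nat.zero_le _)]
    rw [this]
    show NearC G Ψ (W 0) (τ 0) c (Y * G.inc 1)
    rw [map_one, mul_one]
    refine IsC.nearC (c' := c) hc le_rfl hε4 ?_
    simp [hτ]
  · -- steps
    intro q hq a ha
    have ha' : NearC G Ψ (W q) (τ q) c (Y * G.inc a) := by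
      have : Gd q = {e | NearC G Ψ (W q) (τ q) c (Y * G.inc e)} := by
        simp only [hGd]
        rw [if_pos hq]
      rw [this] at ha
      exact ha
    obtain ⟨cq, hcq⟩ := hFl q hq (Y * G.inc a)
    have hd := ha'.dist hcq le_rfl (hpos q hq) hεp.le hε4
    rcases Nat.lt_or_ge q m with hqm | hqm
    · -- a step of the windows
      have hGd1 : Gd (q + 1) = {e | NearC G Ψ (W (q + 1)) (τ (q + 1)) c (Y * G.inc e)} := by
        simp only [hGd]
        rw [if_pos (by omega)]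
      have hWq : W (q + 1) = extW K ρ' (W q) (o ⟨q, hqm⟩) := by
        simp only [hW, seqW]
        rw [dif_pos hqm]
      have hstep : Step K (o ⟨q, hqm⟩) (W q) (W (q + 1)) := by
        rw [hWq]
        exact extW_step (hWle q) _
      have h1 := HT Ψ x r0 hQ hS (hK'K.trans hr0) hF0 (o ⟨q, hqm⟩) (W q) (W (q + 1)) (Y * G.inc a)
        cq hstep ((hwin q hq).mono hx.le hr00 hδδ1) ((hwin (q + 1) (by omega)).mono hx.le hr00 hδδ1)
        (hcq.mono' le_rfl le_rfl hεε0)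
      refine (measure_mono ?_).trans h1
      rintro n ⟨hn, hbad⟩
      refine ⟨hn, ?_⟩
      by_contra hcon
      push Not at hcon
      apply hbad
      rw [hGd1]
      show NearC G Ψ (W (q + 1)) (τ (q + 1)) c (Y * G.inc (a * n))
      obtain ⟨c1, hc1⟩ := hFl (q + 1) (by omega) (Y * G.inc a * G.inc n)
      have h2 := hcon c1 (hc1.mono' le_rfl le_rfl hεε0)
      have e1 : Y * G.inc (a * n) = Y * G.inc a * G.inc n := by rw [map_mul, mul_assoc]
      rw [e1]
      refine IsC.nearC hc1 le_rfl hε4 ?_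
      have h3 : ‖c1 - c‖ ≤ ‖c1 - cq‖ + ‖cq - c‖ := by
        calc ‖c1 - c‖ = ‖(c1 - cq) + (cq - c)‖ := by congr 1; abel
          _ ≤ _ := norm_add_le _ _
      have h4 : τ (q + 1) = τ q + (K + 2) * (η * x) := by simp only [hτ]; push_cast; ring
      rw [h4]
      linarith
    · -- the last step
      have hqm' : q = m := le_antisymm hq hqm
      subst hqm'
      have hGd1 : Gd (q + 1) = {e | ‖Wd G Ψ (Y * G.inc e) - c‖ ≤ τ (q + 1)} := by
        simp only [hGd]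
        rw [if_neg (by omega)]
      refine (measure_mono ?_).trans ((hcq.baseI le_rfl).trans
        (mul_le_mul_left (ENNReal.ofReal_le_ofReal hεεA) _))
      rintro n ⟨hn, hbad⟩
      refine ⟨hn, ?_⟩
      by_contra hcon
      push Not at hcon
      apply hbad
      rw [hGd1]
      show ‖Wd G Ψ (Y * G.inc (a * n)) - c‖ ≤ τ (q + 1)
      have e1 : Y * G.inc (a * n) = Y * G.inc a * G.inc n := by rw [map_mul, mul_assoc]
      rw [e1]
      have h3 : ‖Wd G Ψ (Y * G.inc a * G.inc n) - c‖ ≤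
          ‖Wd G Ψ (Y * G.inc a * G.inc n) - cq‖ + ‖cq - c‖ := by
        calc ‖Wd G Ψ (Y * G.inc a * G.inc n) - c‖
            = ‖(Wd G Ψ (Y * G.inc a * G.inc n) - cq) + (cq - c)‖ := by congr 1; abel
          _ ≤ _ := norm_add_le _ _
      have h4 : τ (q + 1) = τ q + (K + 2) * (η * x) := by simp only [hτ]; push_cast; ring
      rw [h4]
      nlinarith
  · -- the end
    exact (hc'.baseI le_rfl).trans (mul_le_mul_left (ENNReal.ofReal_le_ofReal hεεA) _)

end Vale.P188.H532
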