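import Mathlib.Analysis.Complex.Norm
import Mathlib.Analysis.SpecialFunctions.Exp
import Mathlib.Combinatorics.Pigeonhole
import Mathlib.Tactic

/-!
# P188, block GCL, part 1: the target side

`D` is a crossed homomorphism with character `ρ`; the digit set `{∏ t^i u^{ε_i} t^{-i}}` is spread
for `D`; double counting of right translates.
-/

set_option linter.all false

namespace Vale.Agent.P188.H893

open Finset

variable {G : Type*} [Group G]

/-- crossed homomorphism `D` with character `ρ`, a digit `u` and an expanding element `t` -/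
structure Tgt (ρ D : G → ℂ) (t u : G) : Prop where
  D_mul : ∀ g h, D (g * h) = D g + ρ g * D h
  ρ_mul : ∀ g h, ρ (g * h) = ρ g * ρ h
  ρ_one : ρ 1 = 1
  ρ_u : ρ u = 1
  D_u : D u ≠ 0
  ρ_t : 3 ≤ ‖ρ t‖

/-- the digit element with digits `1_J` -/
def dg (t u : G) (J : Finset ℕ) : ℕ → G
  | 0 => 1
  | n + 1 => dg t u J n * (t ^ n * (if n ∈ J then u else 1) * (t ^ n)⁻¹)

/-- the digit sum -/
def sg (a : ℂ) (J : Finset ℕ) (n : ℕ) : ℂ := ∑ i ∈ range n, if i ∈ J then a ^ i else 0

namespace Tgt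

variable {ρ D : G → ℂ} {t u : G} (T : Tgt ρ D t u)

include T

theorem D_one : D 1 = 0 := by
  have h := T.D_mul 1 1
  rw [mul_one, T.ρ_one, one_mul] at h
  have : D 1 + D 1 = D 1 + 0 := by rw [add_zero]; exact h.symm
  exact add_left_cancel this

theorem ρ_pow (n : ℕ) : ρ (t ^ n) = ρ t ^ n := by
  induction n with
  | zero => simp [T.ρ_one]
  | succ n ih => rw [pow_succ, T.ρ_mul, ih, pow_succ]

theorem ρ_inv (g : G) : ρ g * ρ g⁻¹ = 1 := by rw [← T.ρ_mul, mul_inv_cancel, T.ρ_one]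

theorem ρ_ne (g : G) : ρ g ≠ 0 := by
  intro h
  have := T.ρ_inv g
  rw [h, zero_mul] at this
  exact zero_ne_one this

theorem ρ_digit (n : ℕ) (v : G) (hv : ρ v = 1) : ρ (t ^ n * v * (t ^ n)⁻¹) = 1 := by
  rw [T.ρ_mul, T.ρ_mul, hv, mul_one, T.ρ_inv]

theorem D_digit (n : ℕ) (v : G) (hv : ρ v = 1) :
    D (t ^ n * v * (t ^ n)⁻¹) = ρ t ^ n * D v := by
  have h1 : D (t ^ n * (t ^ n)⁻¹) = 0 := by rw [mul_inv_cancel, T.D_one]
  rw [T.D_mul] at h1
  rw [T.D_mul, T.D_mul, T.ρ_mul, hv, mul_one, T.ρ_pow] at *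
  linear_combination h1

theorem ρ_ite (J : Finset ℕ) (n : ℕ) : ρ (if n ∈ J then u else 1) = 1 := by
  split_ifs
  exacts [T.ρ_u, T.ρ_one]

theorem ρ_dg (J : Finset ℕ) (n : ℕ) : ρ (dg t u J n) = 1 := by
  induction n with
  | zero => exact T.ρ_one
  | succ n ih => rw [dg, T.ρ_mul, ih, one_mul, T.ρ_digit n _ (T.ρ_ite J n)]

theorem D_dg (J : Finset ℕ) (n : ℕ) : D (dg t u J n) = D u * sg (ρ t) J n := by
  induction n with
  | zero => simp [dg, sg, T.D_one]
  | succ n ih =>
    rw [dg, T.D_mul, ih, T.ρ_dg, one_mul, T.D_digit n _ (T.ρ_ite J n), sg, sg,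
      Finset.sum_range_succ]
    split_ifs
    · ring
    · rw [T.D_one]; ring

end Tgt

theorem sg_sub_le {a : ℂ} (ha : 3 ≤ ‖a‖) (J J' : Finset ℕ) (n : ℕ) :
    ‖sg a J n - sg a J' n‖ ≤ ‖a‖ ^ n / 2 := by
  induction n with
  | zero => simp [sg]
  | succ n ih =>
    have h1 : sg a J (n + 1) - sg a J' (n + 1) = (sg a J n - sg a J' n) +
        ((if n ∈ J then a ^ n else 0) - (if n ∈ J' then a ^ n else 0)) := by
      simp only [sg, Finset.sum_range_succ]; ring
    have h2 : ‖(if n ∈ J then a ^ n else 0) - (if n ∈ J' then a ^ n else (0 : ℂ))‖ ≤ ‖a‖ ^ n := by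
      have h0 : 0 ≤ ‖a‖ ^ n := by positivity
      split_ifs <;> simp
    have h3 : 0 ≤ ‖a‖ ^ n := by positivity
    rw [h1]
    refine (norm_add_le _ _).trans ((add_le_add ih h2).trans ?_)
    rw [pow_succ]
    nlinarith

theorem sg_sep {a : ℂ} (ha : 3 ≤ ‖a‖) (J J' : Finset ℕ) {j : ℕ} (n : ℕ)
    (h : ∃ i, j ≤ i ∧ i < n ∧ ¬ (i ∈ J ↔ i ∈ J')) : ‖a‖ ^ j / 2 ≤ ‖sg a J n - sg a J' n‖ := by
  induction n with
  | zero => obtain ⟨i, _, h, _⟩ := h; omega
  | succ n ih =>
    have h1 : sg a J (n + 1) - sg a J' (n + 1) = (sg a J n - sg a J' n) +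
        ((if n ∈ J then a ^ n else 0) - (if n ∈ J' then a ^ n else 0)) := by
      simp only [sg, Finset.sum_range_succ]; ring
    by_cases hn : (n ∈ J ↔ n ∈ J')
    · have h2 : ((if n ∈ J then a ^ n else 0) - (if n ∈ J' then a ^ n else (0 : ℂ))) = 0 := by
        by_cases h3 : n ∈ J
        · rw [if_pos h3, if_pos (hn.1 h3), sub_self]
        · rw [if_neg h3, if_neg (fun h4 => h3 (hn.2 h4)), sub_self]
      rw [h1, h2, add_zero]
      refine ih ?_
      obtain ⟨i, hi1, hi2, hi3⟩ := h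
      refine ⟨i, hi1, ?_, hi3⟩
      rcases Nat.lt_succ_iff_lt_or_eq.1 hi2 with h4 | h4
      · exact h4
      · exact absurd (h4 ▸ hn) hi3
    · have h2 : ‖((if n ∈ J then a ^ n else 0) - (if n ∈ J' then a ^ n else (0 : ℂ)))‖ =
          ‖a‖ ^ n := by
        by_cases h3 : n ∈ J
        · have h4 : n ∉ J' := fun h4 => hn ⟨fun _ => h4, fun _ => h3⟩
          rw [if_pos h3, if_neg h4, sub_zero, norm_pow]
        · have h4 : n ∈ J' := by
            by_contra h4
            exact hn ⟨fun h5 => absurd h5 h3, fun h5 => absurd h5 h4⟩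
          rw [if_neg h3, if_pos h4, zero_sub, norm_neg, norm_pow]
      have h3 := sg_sub_le ha J J' n
      have hjn : j ≤ n := by obtain ⟨i, hi1, hi2, _⟩ := h; omega
      have h5 : ‖a‖ ^ j ≤ ‖a‖ ^ n := pow_le_pow_right₀ (by linarith) hjn
      rw [h1]
      have h6 := norm_sub_le_norm_add
        ((if n ∈ J then a ^ n else 0) - (if n ∈ J' then a ^ n else (0 : ℂ)))
        (sg a J n - sg a J' n)
      rw [h2] at h6
      rw [add_comm (sg a J n - sg a J' n)]
      linarith

theorem Tgt.sep {ρ D : G → ℂ} {t u : G} (T : Tgt ρ D t u) {J J' : Finset ℕ} {j n : ℕ}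
    (h : ∃ i, j ≤ i ∧ i < n ∧ ¬ (i ∈ J ↔ i ∈ J')) (y : G) :
    ‖ρ y‖ * (‖D u‖ * ‖ρ t‖ ^ j / 2) ≤ ‖D (y * dg t u J n) - D (y * dg t u J' n)‖ := by
  have h1 : D (y * dg t u J n) - D (y * dg t u J' n) =
      ρ y * (D u * (sg (ρ t) J n - sg (ρ t) J' n)) := by
    rw [T.D_mul, T.D_mul, T.D_dg, T.D_dg]; ring
  rw [h1, norm_mul, norm_mul]
  have := sg_sep T.ρ_t J J' n h
  have h2 : ‖D u‖ * ‖ρ t‖ ^ j / 2 = ‖D u‖ * (‖ρ t‖ ^ j / 2) := by ring
  rw [h2]
  gcongr

/-! ### word length of digit elements -/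

theorem dg_length {l : G → ℝ} (l_one : l 1 = 0) (l_mul : ∀ x y, l (x * y) ≤ l x + l y)
    (l_inv : ∀ x, l x⁻¹ = l x) (t u : G) (J : Finset ℕ) (n : ℕ) :
    l (dg t u J n) ≤ n * (l u + 2 * l t) := by
  have l_nonneg : ∀ x, 0 ≤ l x := by
    intro x
    have h1 := l_mul x x⁻¹
    rw [mul_inv_cancel, l_one, l_inv] at h1
    linarith
  have hpow : ∀ n : ℕ, l (t ^ n) ≤ n * l t := by
    intro n
    induction n with
    | zero => simp [l_one]
    | succ n ih =>
      rw [pow_succ]
      refine (l_mul _ _).trans ?_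
      push_cast
      linarith
  have h1 : ∀ n, l (dg t u J n * t ^ n) ≤ n * (l u + l t) := by
    intro n
    induction n with
    | zero => simp [dg, l_one]
    | succ n ih =>
      have e : dg t u J (n + 1) * t ^ (n + 1) =
          dg t u J n * t ^ n * (if n ∈ J then u else 1) * t := by
        rw [dg, pow_succ]; group
      rw [e]
      have h2 : l (if n ∈ J then u else 1) ≤ l u := by
        split_ifs
        · exact le_rfl
        · rw [l_one]; exact l_nonneg _
      have h3 := l_mul (dg t u J n * t ^ n * (if n ∈ J then u else 1)) t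
      have h4 := l_mul (dg t u J n * t ^ n) (if n ∈ J then u else 1)
      push_cast
      linarith
  have e : dg t u J n = (dg t u J n * t ^ n) * (t ^ n)⁻¹ := by group
  rw [e]
  refine (l_mul _ _).trans ?_
  rw [l_inv]
  have := h1 n
  have := hpow n
  linarith

/-! ### double counting -/

/-- the set of translates -/
def trans [DecidableEq G] (A : Finset G) (t u : G) (q : ℕ) : Finset G :=
  (A ×ˢ (range q).powerset).image fun p => p.1 * (dg t u p.2 q)⁻¹

theorem exists_translate [DecidableEq G] {A : Finset G} (hA : A.Nonempty) (t u : G) (q : ℕ) :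
    ∃ y ∈ trans A t u q, 2 ^ q * A.card ≤
      (((range q).powerset.filter fun J => y * dg t u J q ∈ A).card) * (trans A t u q).card := by
  classical
  set P := (range q).powerset with hP
  have hPc : P.card = 2 ^ q := by rw [hP, card_powerset, card_range]
  set B := trans A t u q with hB
  have hBmem : ∀ a ∈ A, ∀ J ∈ P, a * (dg t u J q)⁻¹ ∈ B := by
    intro a ha J hJ
    exact mem_image.2 ⟨(a, J), mem_product.2 ⟨ha, hJ⟩, rfl⟩
  have hBne : B.Nonempty := by
    obtain ⟨a, ha⟩ := hA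
    exact ⟨_, hBmem a ha ∅ (by rw [hP]; exact empty_mem_powerset _)⟩
  have hsum : ∑ y ∈ B, (P.filter fun J => y * dg t u J q ∈ A).card = 2 ^ q * A.card := by
    have h1 : ∀ y ∈ B, (P.filter fun J => y * dg t u J q ∈ A).card =
        ∑ J ∈ P, if y * dg t u J q ∈ A then 1 else 0 := by
      intro y _
      rw [card_filter]
    rw [sum_congr rfl h1, sum_comm]
    have h2 : ∀ J ∈ P, (∑ y ∈ B, if y * dg t u J q ∈ A then 1 else 0) = A.card := by
      intro J hJ
      rw [← card_filter]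
      refine card_bij (fun y _ => y * dg t u J q) ?_ ?_ ?_
      · intro y hy
        exact (mem_filter.1 hy).2
      · intro y _ y' _ h
        exact mul_right_cancel h
      · intro a ha
        refine ⟨a * (dg t u J q)⁻¹, mem_filter.2 ⟨hBmem a ha J hJ, ?_⟩, ?_⟩
        · rw [inv_mul_cancel_right]; exact ha
        · rw [inv_mul_cancel_right]
    rw [sum_congr rfl h2, sum_const, hPc, smul_eq_mul]
  by_contra hcon
  push Not at hcon
  have h3 : ∑ y ∈ B, (P.filter fun J => y * dg t u J q ∈ A).card * B.card <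
      ∑ _y ∈ B, 2 ^ q * A.card := sum_lt_sum_of_nonempty hBne hcon
  rw [← sum_mul, hsum, sum_const, smul_eq_mul, mul_comm] at h3
  exact lt_irrefl _ h3

/-- many digit sets of which any colouring with few colours has two well separated elements -/
theorem exists_pair {α : Type*} [DecidableEq α] {q j N : ℕ} {𝒥 : Finset (Finset ℕ)}
    (h𝒥 : ∀ J ∈ 𝒥, J ⊆ range q) (Y : Finset α) (hY : Y.card ≤ N) (φ : Finset ℕ → α)
    (hφ : ∀ J ∈ 𝒥, φ J ∈ Y) (hcard : N * 2 ^ j < 𝒥.card) :
    ∃ J ∈ 𝒥, ∃ J' ∈ 𝒥, φ J = φ J' ∧ ∃ i, j ≤ i ∧ i < q ∧ ¬ (i ∈ J ↔ i ∈ J') := by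
  classical
  have h1 : Y.card * 2 ^ j < 𝒥.card := lt_of_le_of_lt (Nat.mul_le_mul_right _ hY) hcard
  obtain ⟨y, _, hy⟩ := exists_lt_card_fiber_of_mul_lt_card_of_maps_to hφ h1
  set F := 𝒥.filter fun J => φ J = y with hF
  -- two elements with different high part
  by_contra hcon
  push Not at hcon
  have h2 : F.card ≤ (range j).powerset.card := by
    refine card_le_card_of_injOn (fun J => J.filter (· < j)) ?_ ?_
    · intro J _
      simp only [coe_powerset, Set.mem_preimage, Set.mem_powerset_iff, coe_filter]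
      intro i hi
      exact mem_coe.2 (mem_range.2 hi.2)
    · intro J hJ J' hJ' h
      have hJ := mem_filter.1 (mem_coe.1 hJ)
      have hJ' := mem_filter.1 (mem_coe.1 hJ')
      have h3 := hcon J hJ.1 J' hJ'.1 (hJ.2.trans hJ'.2.symm)
      ext i
      by_cases hij : i < j
      · have h4 : i ∈ J.filter (· < j) ↔ i ∈ J'.filter (· < j) := by
          have : J.filter (· < j) = J'.filter (· < j) := h
          rw [this]
        simpa [mem_filter, hij] using h4
      · by_cases hiq : i < q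
        · exact h3 i (by omega) hiq
        · constructor
          · intro h4
            exact absurd (mem_range.1 (h𝒥 J hJ.1 h4)) hiq
          · intro h4
            exact absurd (mem_range.1 (h𝒥 J' hJ'.1 h4)) hiq
  rw [card_powerset, card_range] at h2
  omega

end Vale.Agent.P188.H893
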