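import Vale.Agent.P188.H616.NoFold
import Vale.Agent.P188.H329.Fill
import Vale.Agent.P188.H893.Spread
import Mathlib.MeasureTheory.Function.Floor

/-!
# P188, block GCL, core form

A set `Tol` of points from which, for every letter, a contracting path stays below the starting
height (up to `τ`) has small measure.
-/

set_option linter.all false

namespace Vale.Agent.P188.H893

open MeasureTheory Set Real H616 H329

variable {ι : Type} {S : Type} [Group S] {l h : S → ℝ} {X : S → ℂ} {A L : ℝ}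

/-- the coordinate along a path below height `H` -/
theorem path_le (c : Coord l h X A L) (z : S) {γ : ℕ → S} (h0 : γ 0 = 1) {H lt : ℝ} {m : ℕ}
    (hst : ∀ k < m, l ((γ k)⁻¹ * γ (k + 1)) ≤ lt) (hH : ∀ k ≤ m, h (z * γ k) ≤ H) :
    ‖X (z * γ m) - X z‖ ≤ m * (A * (1 + lt) * exp (H + L * lt)) := by
  induction m with
  | zero => simp [h0]
  | succ m ih =>
    have h1 := ih (fun k hk => hst k (by omega)) fun j hj => hH j (by omega)
    have h2 : ‖X (z * γ (m + 1)) - X (z * γ m)‖ ≤ A * (1 + lt) * exp (H + L * lt) := by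
      refine c.step' _ _ (hH m (by omega)) ?_
      have : (z * γ m)⁻¹ * (z * γ (m + 1)) = (γ m)⁻¹ * γ (m + 1) := by group
      rw [this]; exact hst m (by omega)
    calc ‖X (z * γ (m + 1)) - X z‖
        = ‖(X (z * γ (m + 1)) - X (z * γ m)) + (X (z * γ m) - X z)‖ := by ring_nf
      _ ≤ _ := norm_add_le _ _
      _ ≤ A * (1 + lt) * exp (H + L * lt) + m * (A * (1 + lt) * exp (H + L * lt)) := add_le_add h2 h1
      _ = _ := by push_cast; ring

/-- two paths that merge -/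
theorem merge_le (c : Coord l h X A L) (z w : S) {γ : ℕ → S} (h0 : γ 0 = 1) {H lt d : ℝ} {m : ℕ}
    (hlt0 : 0 ≤ lt) (hd0 : 0 ≤ d) (hst : ∀ k < m, l ((γ k)⁻¹ * γ (k + 1)) ≤ lt)
    (hz : ∀ k ≤ m, h (z * γ k) ≤ H) (hw : ∀ k ≤ m, h (w * γ k) ≤ H)
    (hd : l ((z * γ m)⁻¹ * (w * γ m)) ≤ d) :
    ‖X w - X z‖ ≤ (2 * m + 1) * (A * (1 + d + lt) * exp (H + L * (d + lt))) := by
  have h1 := path_le c z h0 hst hz
  have h2 := path_le c w h0 hst hw
  have h3 := c.step' (z * γ m) (w * γ m) (hz m le_rfl) hd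
  have hA := c.A0
  have hL := c.L0
  set B := A * (1 + d + lt) * exp (H + L * (d + lt)) with hB
  have hb1 : A * (1 + lt) * exp (H + L * lt) ≤ B := by
    refine mul_le_mul ?_ (exp_le_exp.2 ?_) (exp_pos _).le ?_
    · exact mul_le_mul_of_nonneg_left (by linarith) hA
    · nlinarith [mul_nonneg hL hd0]
    · exact mul_nonneg hA (by linarith)
  have hb2 : A * (1 + d) * exp (H + L * d) ≤ B := by
    refine mul_le_mul ?_ (exp_le_exp.2 ?_) (exp_pos _).le ?_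
    · exact mul_le_mul_of_nonneg_left (by linarith) hA
    · nlinarith [mul_nonneg hL hlt0]
    · exact mul_nonneg hA (by linarith)
  have hm : (0 : ℝ) ≤ m := Nat.cast_nonneg m
  calc ‖X w - X z‖ = ‖-(X (w * γ m) - X w) + ((X (w * γ m) - X (z * γ m)) +
        (X (z * γ m) - X z))‖ := by ring_nf
    _ ≤ ‖-(X (w * γ m) - X w)‖ + ‖(X (w * γ m) - X (z * γ m)) + (X (z * γ m) - X z)‖ :=
        norm_add_le _ _
    _ ≤ ‖X (w * γ m) - X w‖ + (‖X (w * γ m) - X (z * γ m)‖ + ‖X (z * γ m) - X z‖) := by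
        rw [norm_neg]
        gcongr
        exact norm_add_le _ _
    _ ≤ m * B + (B + m * B) := by
        refine add_le_add (h2.trans ?_) (add_le_add (h3.trans hb2) (h1.trans ?_))
        · exact mul_le_mul_of_nonneg_left hb1 hm
        · exact mul_le_mul_of_nonneg_left hb1 hm
    _ = _ := by ring

/-- Contracting paths for the letters `s i x`, `|x| ≤ 1`. -/
structure Paths (l : S → ℝ) (s : ι → ℝ → S) (γ : ι → ℕ → S) (m : ℕ) (d lt lm : ℝ) : Prop where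
  d0 : 0 ≤ d
  lt0 : 0 ≤ lt
  one : ∀ i, γ i 0 = 1
  stepl : ∀ i, ∀ k < m, l ((γ i k)⁻¹ * γ i (k + 1)) ≤ lt
  merge : ∀ i x, |x| ≤ 1 → l ((γ i m)⁻¹ * s i x * γ i m) ≤ d
  len : ∀ i x, |x| ≤ 1 → l (s i x) ≤ lm

/-- Points for which all the contracting paths stay below the starting height plus `τ`. -/
def Tol (h : S → ℝ) (γ : ι → ℕ → S) (m : ℕ) (τ : ℝ) : Set S :=
  {z | ∀ i, ∀ k ≤ m, h (z * γ i k) ≤ h z + τ}

theorem floor_eq {x y : ℝ} {M : ℕ} {cc : ℤ} (hM : 2 ≤ M) (hxy : |y - x| ≤ M - 2)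
    (hx : (M : ℤ) ∣ ⌊x⌋ - cc) (hy : (M : ℤ) ∣ ⌊y⌋ - cc) : ⌊y⌋ = ⌊x⌋ := by
  have h1 : (M : ℤ) ∣ ⌊y⌋ - ⌊x⌋ := by
    have := dvd_sub hy hx
    have e : ⌊y⌋ - cc - (⌊x⌋ - cc) = ⌊y⌋ - ⌊x⌋ := by ring
    rwa [e] at this
  have h2 : |⌊y⌋ - ⌊x⌋| < (M : ℤ) := by
    rw [abs_le] at hxy
    have a1 := Int.floor_le x
    have a2 := Int.lt_floor_add_one x
    have a3 := Int.floor_le y
    have a4 := Int.lt_floor_add_one y
    rw [abs_lt]
    constructor
    · have : (-(M : ℤ) : ℝ) < ((⌊y⌋ - ⌊x⌋ : ℤ) : ℝ) := by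
        push_cast
        linarith [hxy.1]
      exact_mod_cast this
    · have : ((⌊y⌋ - ⌊x⌋ : ℤ) : ℝ) < ((M : ℤ) : ℝ) := by
        push_cast
        linarith [hxy.2]
      exact_mod_cast this
  have h3 := Int.eq_zero_of_abs_lt_dvd h1 h2
  linarith

theorem reach_close (c : Coord l h X A L) {s : ι → ℝ → S} {γ : ι → ℕ → S} {m : ℕ} {d lt lm : ℝ}
    (P : Paths l s γ m d lt lm) {τ : ℝ} (hτ : 0 < τ) {M : ℕ} (hM2 : 2 ≤ M)
    (hM : L * lm ≤ (M - 2) * τ) {G : Set S} (hG : G ⊆ Tol h γ m τ) {cc : ℤ}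
    (hGc : ∀ z ∈ G, (M : ℤ) ∣ ⌊h z / τ⌋ - cc) {n : ℕ} {a b : S} (hr : Reach s G n a b) :
    ⌊h b / τ⌋ = ⌊h a / τ⌋ ∧ ‖X b - X a‖ ≤ n * ((2 * m + 1) * (A * (1 + d + lt) *
      exp ((⌊h a / τ⌋ + 2) * τ + L * (d + lt)))) := by
  induction n generalizing a with
  | zero =>
    obtain ⟨_, rfl⟩ := hr
    simp
  | succ n ih =>
    obtain ⟨ha, i, x, hx, hr⟩ := hr
    have ha' : a * s i x ∈ G := hr.left
    obtain ⟨h1, h2⟩ := ih hr
    have hf : ⌊h (a * s i x) / τ⌋ = ⌊h a / τ⌋ := by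
      refine floor_eq hM2 ?_ (hGc _ ha) (hGc _ ha')
      rw [← sub_div, abs_div, abs_of_pos hτ, div_le_iff₀ hτ]
      exact (c.lip a (s i x)).trans ((mul_le_mul_of_nonneg_left (P.len i x hx) c.L0).trans hM)
    have hle : ∀ y : S, ⌊h y / τ⌋ = ⌊h a / τ⌋ → h y ≤ (⌊h a / τ⌋ + 1) * τ := by
      intro y hy
      have := (Int.lt_floor_add_one (h y / τ)).le
      rw [hy, div_le_iff₀ hτ] at this
      exact this
    have hmer : ‖X (a * s i x) - X a‖ ≤ (2 * m + 1) * (A * (1 + d + lt) *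
        exp ((⌊h a / τ⌋ + 2) * τ + L * (d + lt))) := by
      refine merge_le c a (a * s i x) (P.one i) P.lt0 P.d0 (P.stepl i) ?_ ?_ ?_
      · intro k hk
        have h3 := hG ha i k hk
        have h4 := hle a rfl
        linarith
      · intro k hk
        have h3 := hG ha' i k hk
        have h4 := hle _ hf
        linarith
      · have e : (a * γ i m)⁻¹ * (a * s i x * γ i m) = (γ i m)⁻¹ * s i x * γ i m := by group
        rw [e]
        exact P.merge i x hx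
    refine ⟨h1.trans hf, ?_⟩
    rw [hf] at h2
    calc ‖X b - X a‖ = ‖(X b - X (a * s i x)) + (X (a * s i x) - X a)‖ := by ring_nf
      _ ≤ _ := norm_add_le _ _
      _ ≤ _ := add_le_add h2 hmer
      _ = _ := by push_cast; ring

/-- **GCL, core form.** -/
theorem gcl_core [Finite ι] [MeasurableSpace S] (μ : Measure S) [SFinite μ]
    (c : Coord l h X A L) {s : ι → ℝ → S} {γ : ι → ℕ → S} {m : ℕ} {d lt lm : ℝ}
    (P : Paths l s γ m d lt lm)
    (hadd : ∀ i x y, s i (x + y) = s i x * s i y) (hs0 : ∀ i, s i 0 = 1)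
    (hm : ∀ i, Measurable fun q : S × ℝ => q.1 * s i q.2)
    (hinv : ∀ i x, MeasurePreserving (fun z => z * s i x) μ μ)
    (hh : Measurable h) (hγ : ∀ i k, Measurable fun z => h (z * γ i k))
    {τ : ℝ} (hτ : 0 < τ) {M : ℕ} (hM2 : 2 ≤ M) (hM : L * lm ≤ (M - 2) * τ)
    {DD Dq : Set S} (hDD : MeasurableSet DD) (hDq : MeasurableSet Dq)
    (hDDq : ∀ z ∈ DD, ∀ i x, |x| ≤ 1 → z * s i x ∈ Dq)
    {θ θ' : ENNReal} {n N0 N p cI : ℕ} {CI κ0 : ℝ} {B : S → Set S}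
    (hfill : ∀ G : Set S, MeasurableSet G → (∀ z ∈ G, ∀ i, θ' ≤ win s i G z) → ∀ z0 : S,
        ∃ T : Finset S, T.card ≤ N0 ∧
          ∀ z ∈ G, InP s cI CI z0 z → ∃ t ∈ T, Reach s G n z t)
    (hcov : ∀ z0, ∃ F : Finset S, F.card ≤ p ∧ ∀ z ∈ DD ∩ B z0, ∃ z1 ∈ F, InP s cI CI z1 z)
    (hN : p * N0 ≤ N)
    (hspread : ∀ Γ : Set S, MeasurableSet Γ → Γ ⊆ DD → θ * μ DD ≤ μ Γ → μ Γ ≠ 0 → ∃ z0,
      ∀ (Y : Finset S) (φ : S → S), Y.card ≤ N → (∀ z ∈ Γ ∩ B z0, φ z ∈ Y) →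
      ∃ z ∈ Γ ∩ B z0, ∃ z' ∈ Γ ∩ B z0, φ z = φ z' ∧ exp (h z + κ0) < ‖X z - X z'‖)
    (hbig : 2 * (n * ((2 * m + 1) * (A * (1 + d + lt) * exp (2 * τ + L * (d + lt))))) ≤ exp κ0) :
    μ (DD ∩ Tol h γ m τ) ≤ M * (θ * μ DD + Nat.card ι * (θ' * μ Dq)) := by
  classical
  haveI : Fintype ι := Fintype.ofFinite ι
  have hTol : MeasurableSet (Tol h γ m τ) := by
    have : Tol h γ m τ = ⋂ i : ι, ⋂ k : Fin (m + 1), {z | h (z * γ i k) ≤ h z + τ} := by
      ext z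
      simp only [Tol, mem_setOf_eq, mem_iInter]
      constructor
      · intro h1 i k
        exact h1 i k (by omega)
      · intro h1 i k hk
        exact h1 i ⟨k, by omega⟩
    rw [this]
    refine MeasurableSet.iInter fun i => MeasurableSet.iInter fun k => ?_
    exact measurableSet_le (hγ i k) (hh.add_const τ)
  set Γ : ℕ → Set S := fun cc => (DD ∩ Tol h γ m τ) ∩ {z | (M : ℤ) ∣ ⌊h z / τ⌋ - cc} with hΓ
  have hfl : Measurable fun z => ⌊h z / τ⌋ := (hh.div_const τ).floor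
  have hΓm : ∀ cc, MeasurableSet (Γ cc) := by
    intro cc
    refine (hDD.inter hTol).inter ?_
    exact hfl (MeasurableSet.of_discrete (s := {k : ℤ | (M : ℤ) ∣ k - cc}))
  have hone : ∀ cc, μ (Γ cc) ≤ θ * μ DD + Nat.card ι * (θ' * μ Dq) := by
    intro cc
    obtain ⟨Γ', hsub, hΓ'm, hloss, hwin⟩ := clean μ hadd hs0 hm hinv (hΓm cc) hDq
      (fun z hz i x hx => hDDq z hz.1.1 i x hx) θ'
    have h1 : μ (Γ cc) ≤ μ Γ' + Nat.card ι * (θ' * μ Dq) := by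
      calc μ (Γ cc) ≤ μ (Γ' ∪ (Γ cc \ Γ')) := measure_mono (by
            intro z hz
            by_cases h2 : z ∈ Γ'
            · exact Or.inl h2
            · exact Or.inr ⟨hz, h2⟩)
        _ ≤ μ Γ' + μ (Γ cc \ Γ') := measure_union_le _ _
        _ ≤ _ := by gcongr
    refine h1.trans (add_le_add ?_ le_rfl)
    by_contra hcon
    rw [not_le] at hcon
    obtain ⟨z0, hz0⟩ := hspread Γ' hΓ'm (fun z hz => (hsub hz).1.1) hcon.le
      (fun h2 => by rw [h2] at hcon; exact not_lt_zero' hcon)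
    obtain ⟨F, hF, hFc⟩ := hcov z0
    choose T hT1 hT2 using hfill Γ' hΓ'm hwin
    set Y : Finset S := F.biUnion T with hY
    have hYc : Y.card ≤ N := by
      refine le_trans ?_ hN
      refine (Finset.card_biUnion_le).trans ?_
      calc ∑ u ∈ F, (T u).card ≤ ∑ u ∈ F, N0 := Finset.sum_le_sum fun u _ => hT1 u
        _ = F.card * N0 := by rw [Finset.sum_const, smul_eq_mul]
        _ ≤ p * N0 := Nat.mul_le_mul_right _ hF
    have hch : ∀ z ∈ Γ' ∩ B z0, ∃ y ∈ Y, Reach s Γ' n z y := by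
      intro z hz
      obtain ⟨z1, hz1, hin⟩ := hFc z ⟨(hsub hz.1).1.1, hz.2⟩
      obtain ⟨t, ht, hr⟩ := hT2 z1 z hz.1 hin
      exact ⟨t, Finset.mem_biUnion.2 ⟨z1, hz1, ht⟩, hr⟩
    set φ : S → S := fun z => if hz : z ∈ Γ' ∩ B z0 then (hch z hz).choose else z with hφ
    have hφY : ∀ z ∈ Γ' ∩ B z0, φ z ∈ Y ∧ Reach s Γ' n z (φ z) := by
      intro z hz
      have : φ z = (hch z hz).choose := by simp only [hφ]; rw [dif_pos hz]
      rw [this]
      exact (hch z hz).choose_spec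
    obtain ⟨z, hz, z', hz', heq, hbad⟩ := hz0 Y φ hYc fun z hz => (hφY z hz).1
    have hGT : Γ' ⊆ Tol h γ m τ := fun z hz => (hsub hz).1.2
    have hGc : ∀ z ∈ Γ', (M : ℤ) ∣ ⌊h z / τ⌋ - (cc : ℤ) := fun z hz => (hsub hz).2
    obtain ⟨k1, k2⟩ := reach_close c P hτ hM2 hM hGT hGc (hφY z hz).2
    obtain ⟨k3, k4⟩ := reach_close c P hτ hM2 hM hGT hGc (hφY z' hz').2
    rw [← heq] at k3 k4
    have k5 : ⌊h z' / τ⌋ = ⌊h z / τ⌋ := k3.symm.trans k1
    rw [k5] at k4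
    have hfl : (⌊h z / τ⌋ : ℝ) * τ ≤ h z := by
      have := Int.floor_le (h z / τ)
      rwa [le_div_iff₀ hτ] at this
    have hA := c.A0
    have hd0 := P.d0
    have hlt0 := P.lt0
    set Q := n * ((2 * (m : ℝ) + 1) * (A * (1 + d + lt) *
      exp ((⌊h z / τ⌋ + 2) * τ + L * (d + lt)))) with hQ
    have hfin : ‖X z - X z'‖ ≤ exp (h z + κ0) := by
      calc ‖X z - X z'‖ = ‖-(X (φ z) - X z) + (X (φ z) - X z')‖ := by ring_nf
        _ ≤ ‖-(X (φ z) - X z)‖ + ‖X (φ z) - X z'‖ := norm_add_le _ _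
        _ ≤ Q + Q := by rw [norm_neg]; exact add_le_add k2 k4
        _ = 2 * (n * ((2 * (m : ℝ) + 1) * (A * (1 + d + lt) *
              exp (⌊h z / τ⌋ * τ + (2 * τ + L * (d + lt)))))) := by
            rw [hQ]; ring_nf
        _ ≤ 2 * (n * ((2 * (m : ℝ) + 1) * (A * (1 + d + lt) *
              exp (h z + (2 * τ + L * (d + lt)))))) := by
            gcongr
        _ = exp (h z) * (2 * (n * ((2 * m + 1) * (A * (1 + d + lt) *
              exp (2 * τ + L * (d + lt)))))) := by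
            rw [exp_add (h z) (2 * τ + L * (d + lt))]; ring
        _ ≤ exp (h z) * exp κ0 := mul_le_mul_of_nonneg_left hbig (exp_pos _).le
        _ = exp (h z + κ0) := by rw [exp_add]
    exact absurd hbad (not_lt.2 hfin)
  have hcovc : DD ∩ Tol h γ m τ ⊆ ⋃ cc ∈ Finset.range M, Γ cc := by
    intro z hz
    have hM0 : (0 : ℤ) < M := by omega
    have h1 := Int.emod_nonneg ⌊h z / τ⌋ hM0.ne'
    have h2 := Int.emod_lt_of_pos ⌊h z / τ⌋ hM0
    obtain ⟨cc, hcc⟩ := Int.eq_ofNat_of_zero_le h1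
    rw [mem_iUnion₂]
    refine ⟨cc, Finset.mem_range.2 (by omega), hz, ?_⟩
    show (M : ℤ) ∣ ⌊h z / τ⌋ - (cc : ℤ)
    rw [← hcc]
    exact Int.dvd_self_sub_emod
  calc μ (DD ∩ Tol h γ m τ) ≤ μ (⋃ cc ∈ Finset.range M, Γ cc) := measure_mono hcovc
    _ ≤ ∑ cc ∈ Finset.range M, μ (Γ cc) := measure_biUnion_finset_le _ _
    _ ≤ ∑ cc ∈ Finset.range M, (θ * μ DD + Nat.card ι * (θ' * μ Dq)) :=
        Finset.sum_le_sum fun cc _ => hone cc
    _ = M * (θ * μ DD + Nat.card ι * (θ' * μ Dq)) := by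
        rw [Finset.sum_const, Finset.card_range, nsmul_eq_mul]

end Vale.Agent.P188.H893
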